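import Vale.Agent.P368.Main

/-!
# P368: valid circuits are unitary, outcome probabilities add up to one, and the bound on the
worst-case advantage at entangling depth two
-/

namespace Vale.Agent.P368

open Matrix

section

variable {ι : Type} [Fintype ι] [DecidableEq ι]

theorem prodOp_isometry (w : ι → M2) (hw : ∀ i, w i ∈ unitaryGroup Bool ℂ) :
    (prodOp w)ᴴ * prodOp w = 1 := by
  rw [prodOp_conjTranspose, prodOp_mul]
  have h : (fun i => (w i)ᴴ * w i) = fun _ : ι => (1 : M2) := by
    funext i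
    have := mem_unitaryGroup_iff'.1 (hw i)
    rwa [star_eq_conjTranspose] at this
  rw [h, prodOp_one]

theorem layerOp_isometry (L : List (Gate ι)) (hL : LayerValid L) :
    (layerOp L)ᴴ * layerOp L = 1 := by
  obtain ⟨w, l, hw, hl, _, hop⟩ := layer_normal L hL
  rw [hop, conjTranspose_mul, Matrix.mul_assoc, ← Matrix.mul_assoc (prodOp w)ᴴ,
    prodOp_isometry w hw, Matrix.one_mul, reflProd_conjTranspose_mul_self l hl]

theorem circuitOp_isometry (c : List (List (Gate ι))) (hc : ∀ L ∈ c, LayerValid L) :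
    (circuitOp c)ᴴ * circuitOp c = 1 := by
  induction c with
  | nil => simp [circuitOp]
  | cons L c ih =>
    have ih' := ih (fun L' hL' => hc L' (List.mem_cons_of_mem _ hL'))
    change (circuitOp c * layerOp L)ᴴ * (circuitOp c * layerOp L) = 1
    rw [conjTranspose_mul, Matrix.mul_assoc, ← Matrix.mul_assoc (circuitOp c)ᴴ, ih',
      Matrix.one_mul, layerOp_isometry L (hc L List.mem_cons_self)]

theorem sum_normSq_column (c : List (List (Gate ι))) (hc : ∀ L ∈ c, LayerValid L)
    (z0 : ι → Bool) : ∑ z : ι → Bool, ‖circuitOp c z z0‖ ^ 2 = 1 := by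
  have h := congrFun (congrFun (circuitOp_isometry c hc) z0) z0
  rw [Matrix.mul_apply, Matrix.one_apply_eq] at h
  have h2 : ((∑ z : ι → Bool, ‖circuitOp c z z0‖ ^ 2 : ℝ) : ℂ) = 1 := by
    rw [← h]
    push_cast
    refine Finset.sum_congr rfl fun z _ => ?_
    rw [conjTranspose_apply, Complex.star_def, Complex.conj_mul']
  exact_mod_cast h2

end

section

variable {n a : ℕ}

theorem prob_nonneg (c : List (List (Gate (Fin n ⊕ Fin a)))) (x : Fin n → Bool)
    (q : Fin n ⊕ Fin a) (β : Bool) : 0 ≤ prob c x q β := by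
  unfold prob
  refine Finset.sum_nonneg fun z _ => ?_
  split_ifs
  · positivity
  · exact le_rfl

theorem prob_add_prob_not (c : List (List (Gate (Fin n ⊕ Fin a))))
    (hc : ∀ L ∈ c, LayerValid L) (x : Fin n → Bool) (q : Fin n ⊕ Fin a) (β : Bool) :
    prob c x q β + prob c x q (!β) = 1 := by
  unfold prob
  rw [← Finset.sum_add_distrib, ← sum_normSq_column c hc (initState x)]
  refine Finset.sum_congr rfl fun z _ => ?_
  by_cases h : z q = β
  · have h' : z q ≠ !β := by
      rw [h]
      cases β <;> simp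
    rw [if_pos h, if_neg h', add_zero]
  · have h' : z q = !β := by
      cases hz : z q <;> cases β <;> simp_all
    rw [if_neg h, if_pos h', zero_add]

/-- worst-case advantage `ε` forces parity correlation at least `2 ε` -/
theorem correlation_ge_of_advantage (c : List (List (Gate (Fin n ⊕ Fin a))))
    (hc : ∀ L ∈ c, LayerValid L) (q : Fin n ⊕ Fin a) (ε : ℝ)
    (h : ∀ x : Fin n → Bool, 1 / 2 + ε ≤ prob c x q (parity x)) :
    2 * ε ≤ correlation c q := by
  unfold correlation
  have h1 : ∑ _x : Fin n → Bool, (2 * ε) ≤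
      ∑ x : Fin n → Bool, (prob c x q (parity x) - prob c x q (!(parity x))) := by
    refine Finset.sum_le_sum fun x _ => ?_
    have e := prob_add_prob_not c hc x q (parity x)
    have := h x
    linarith
  rw [Finset.sum_const, Finset.card_univ, Fintype.card_fun, Fintype.card_bool, Fintype.card_fin,
    nsmul_eq_mul] at h1
  push_cast at h1
  have hp : (0 : ℝ) < 2 ^ n := by positivity
  calc 2 * ε = (1 / 2 ^ n : ℝ) * (2 ^ n * (2 * ε)) := by field_simp
    _ ≤ _ := by
      apply mul_le_mul_of_nonneg_left h1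
      positivity

theorem depth_two_advantage (c : List (List (Gate (Fin n ⊕ Fin a)))) (q : Fin n ⊕ Fin a)
    (hc : ∀ L ∈ c, LayerValid L) (hd : entDepth c ≤ 2) (ε : ℝ)
    (h : ∀ x : Fin n → Bool, 1 / 2 + ε ≤ prob c x q (parity x)) :
    ε ≤ 81 * (2 : ℝ) ^ (-(n : ℝ) / 2) := by
  have h1 := correlation_ge_of_advantage c hc q ε h
  have h2 := depth_two_bound n a c q hc hd
  have h3 := le_abs_self (correlation c q)
  linarith

end

/-- the bound `81 * 2 ^ (-n/2)` drops below any fixed `ε > 0` -/
theorem exists_threshold (ε : ℝ) (hε : 0 < ε) :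
    ∃ n0 : ℕ, ∀ n : ℕ, n0 ≤ n → 81 * (2 : ℝ) ^ (-(n : ℝ) / 2) < ε := by
  have hr : rr < 1 := by
    unfold rr
    rw [Real.sqrt_lt' (by norm_num)]
    norm_num
  have hr0 : 0 ≤ rr := by
    unfold rr
    positivity
  obtain ⟨n0, hn0⟩ := exists_pow_lt_of_lt_one (show (0 : ℝ) < ε / 81 by positivity) hr
  refine ⟨n0, fun n hn => ?_⟩
  rw [← rr_pow_eq]
  have : rr ^ n ≤ rr ^ n0 := pow_le_pow_of_le_one hr0 hr.le hn
  have h2 : rr ^ n < ε / 81 := lt_of_le_of_lt this hn0
  rw [lt_div_iff₀ (by norm_num)] at h2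
  linarith

end Vale.Agent.P368
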