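import Mathlib

/-!
# P368: abstract facts on traces of complex matrices
-/

namespace Vale.Agent.P368

open Matrix

variable {d : Type} [Fintype d] [DecidableEq d]

theorem trace_conjTranspose_mul_self_eq (M : Matrix d d ℂ) :
    trace (Mᴴ * M) = ((∑ i, ∑ j, ‖M i j‖ ^ 2 : ℝ) : ℂ) := by
  simp only [Matrix.trace, Matrix.diag_apply, Matrix.mul_apply, Matrix.conjTranspose_apply]
  rw [Finset.sum_comm]
  push_cast
  refine Finset.sum_congr rfl fun i _ => Finset.sum_congr rfl fun j _ => ?_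
  rw [Complex.star_def, Complex.conj_mul']

/-- Cauchy-Schwarz for the trace inner product -/
theorem norm_trace_conjTranspose_mul_le (X Y : Matrix d d ℂ) :
    ‖trace (Xᴴ * Y)‖ ≤ Real.sqrt (trace (Xᴴ * X)).re * Real.sqrt (trace (Yᴴ * Y)).re := by
  rw [trace_conjTranspose_mul_self_eq, trace_conjTranspose_mul_self_eq, Complex.ofReal_re,
    Complex.ofReal_re]
  simp only [Matrix.trace, Matrix.diag_apply, Matrix.mul_apply, Matrix.conjTranspose_apply]
  rw [Finset.sum_comm]
  simp only [← Fintype.sum_prod_type']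
  refine le_trans (norm_sum_le _ _) ?_
  refine le_trans (le_of_eq ?_) (Real.sum_mul_le_sqrt_mul_sqrt Finset.univ
    (fun p : d × d => ‖X p.1 p.2‖) (fun p : d × d => ‖Y p.1 p.2‖))
  refine Finset.sum_congr rfl fun p _ => ?_
  rw [norm_mul, norm_star]

private theorem pos_trace_aux (D Y : Matrix d d ℂ) (c : ℝ) (hc : 0 < c) (hD : D.IsHermitian)
    (hDD : D * D = (c : ℂ) • D) (hY : Y.IsHermitian) (hYY : Y * Y = Y) :
    (trace (D * Y)).im = 0 ∧ 0 ≤ (trace (D * Y)).re := by
  have h1 : (c : ℂ) * trace (D * Y) = trace ((D * Y)ᴴ * (D * Y)) := by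
    rw [Matrix.conjTranspose_mul, hD.eq, hY.eq]
    calc (c : ℂ) * trace (D * Y) = trace (((c : ℂ) • D) * Y) := by
          rw [Matrix.smul_mul, Matrix.trace_smul, smul_eq_mul]
      _ = trace (D * D * (Y * Y)) := by rw [hDD, hYY]
      _ = trace (Y * D * (D * Y)) := by
          rw [Matrix.mul_assoc Y D (D * Y), Matrix.trace_mul_comm Y]
          simp only [Matrix.mul_assoc]
  rw [trace_conjTranspose_mul_self_eq] at h1
  have hc' : (c : ℂ) ≠ 0 := by exact_mod_cast hc.ne'
  have h2 : trace (D * Y) = (((∑ i, ∑ j, ‖(D * Y) i j‖ ^ 2) / c : ℝ) : ℂ) := by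
    push_cast
    push_cast at h1
    field_simp
    rw [← h1]; ring
  rw [h2]
  refine ⟨Complex.ofReal_im _, ?_⟩
  rw [Complex.ofReal_re]
  positivity

/-- positivity: `D` a positive multiple of a projector, `Y` a projector -/
theorem pos_trace (D Y : Matrix d d ℂ) (c : ℝ) (hc : 0 < c) (hD : D.IsHermitian)
    (hDD : D * D = (c : ℂ) • D) (hY : Y.IsHermitian) (hYY : Y * Y = Y) :
    (trace (D * Y)).im = 0 ∧ 0 ≤ (trace (D * Y)).re ∧ (trace (D * Y)).re ≤ (trace D).re := by
  obtain ⟨h1, h2⟩ := pos_trace_aux D Y c hc hD hDD hY hYY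
  have hY' : (1 - Y).IsHermitian := Matrix.isHermitian_one.sub hY
  have hYY' : (1 - Y) * (1 - Y) = 1 - Y := by
    rw [mul_sub, sub_mul, sub_mul, hYY]; simp
  obtain ⟨_, h4⟩ := pos_trace_aux D (1 - Y) c hc hD hDD hY' hYY'
  refine ⟨h1, h2, ?_⟩
  rw [mul_sub, mul_one, Matrix.trace_sub, Complex.sub_re] at h4
  linarith

private theorem off_conj (P R : Matrix d d ℂ) (hP : P.IsHermitian) (hR : R.IsHermitian) :
    ((1 - P) * R * P)ᴴ = P * R * (1 - P) := by
  rw [Matrix.conjTranspose_mul, Matrix.conjTranspose_mul, Matrix.conjTranspose_sub,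
    Matrix.conjTranspose_one, hP.eq, hR.eq, Matrix.mul_assoc]

private theorem off_mul (P R A : Matrix d d ℂ) (hP : P.IsHermitian) (hPP : P * P = P)
    (hR : R.IsHermitian) :
    trace (((1 - P) * R * P)ᴴ * ((1 - P) * A * P))
      = trace (P * (R * A)) - trace (R * P * A * P) := by
  rw [off_conj P R hP hR]
  have h1 : P * R * (1 - P) * ((1 - P) * A * P) = P * R * A * P - P * R * P * A * P := by
    have h2 : (1 - P) * (1 - P) = 1 - P := by
      rw [mul_sub, sub_mul, sub_mul, hPP]; simp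
    calc P * R * (1 - P) * ((1 - P) * A * P) = P * R * ((1 - P) * (1 - P)) * A * P := by
          simp only [Matrix.mul_assoc]
      _ = P * R * A * P - P * R * P * A * P := by
          rw [h2]; simp only [mul_sub, sub_mul, mul_one, Matrix.mul_assoc]
  rw [h1, Matrix.trace_sub]
  congr 1
  · rw [Matrix.trace_mul_comm (P * R * A) P]
    rw [← Matrix.mul_assoc, ← Matrix.mul_assoc, hPP]
    simp only [Matrix.mul_assoc]
  · rw [Matrix.trace_mul_comm (P * R * P * A) P]
    rw [← Matrix.mul_assoc, ← Matrix.mul_assoc, ← Matrix.mul_assoc, hPP]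
    rw [Matrix.mul_assoc (P * R) P A, Matrix.mul_assoc P R (P * A), Matrix.trace_mul_comm P]
    simp only [Matrix.mul_assoc]

private theorem trace_real (P R : Matrix d d ℂ) (hP : P.IsHermitian) (hR : R.IsHermitian) :
    star (trace (P * R)) = trace (P * R) := by
  rw [← Matrix.trace_conjTranspose, Matrix.conjTranspose_mul, hP.eq, hR.eq,
    Matrix.trace_mul_comm]

private theorem off_sq (P R : Matrix d d ℂ) (hP : P.IsHermitian) (hPP : P * P = P)
    (hrk : ∀ X : Matrix d d ℂ, P * X * P = trace (P * X) • P)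
    (hR : R.IsHermitian) :
    (trace (((1 - P) * R * P)ᴴ * ((1 - P) * R * P))).re
      = (trace (P * (R * R))).re - ‖trace (P * R)‖ ^ 2 := by
  rw [off_mul P R R hP hPP hR]
  have h1 : R * P * R * P = R * (P * R * P) := by simp only [Matrix.mul_assoc]
  rw [h1, hrk R, Matrix.mul_smul, Matrix.trace_smul, Matrix.trace_mul_comm R P, smul_eq_mul]
  have h2 : trace (P * R) * trace (P * R) = ((‖trace (P * R)‖ ^ 2 : ℝ) : ℂ) := by
    have hs := trace_real P R hP hR
    calc trace (P * R) * trace (P * R) = star (trace (P * R)) * trace (P * R) := by rw [hs]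
      _ = ((‖trace (P * R)‖ ^ 2 : ℝ) : ℂ) := by
          rw [Complex.star_def, Complex.conj_mul']
          push_cast; rfl
  rw [h2, Complex.sub_re, Complex.ofReal_re]

/-- conjugating the projector `A` by the reflection about the rank one projector `P` changes the
trace against `R` by at most `2 v`, where `v ^ 2` bounds the variance of `R` in the state `P` -/
theorem refl_trace_bound (P R A : Matrix d d ℂ) (hP : P.IsHermitian) (hPP : P * P = P)
    (hrk : ∀ X : Matrix d d ℂ, P * X * P = trace (P * X) • P) (htr : trace P = 1)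
    (hR : R.IsHermitian) (hA : A.IsHermitian) (hAA : A * A = A) (v : ℝ) (hv0 : 0 ≤ v)
    (hv : (trace (P * (R * R))).re - ‖trace (P * R)‖ ^ 2 ≤ v ^ 2) :
    ‖trace (R * ((1 - (2 : ℂ) • P) * A * (1 - (2 : ℂ) • P))) - trace (R * A)‖ ≤ 2 * v := by
  set X := (1 - P) * R * P with hX
  set Y := (1 - P) * A * P with hY
  have hXY : trace (Xᴴ * Y) = trace (P * (R * A)) - trace (R * P * A * P) :=
    off_mul P R A hP hPP hR
  have hYX : trace (Yᴴ * X) = trace (P * (A * R)) - trace (A * P * R * P) :=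
    off_mul P A R hP hPP hA
  have hXX : (trace (Xᴴ * X)).re ≤ v ^ 2 := by
    rw [hX, off_sq P R hP hPP hrk hR]; exact hv
  have hYY : (trace (Yᴴ * Y)).re ≤ (1 / 2 : ℝ) ^ 2 := by
    rw [hY, off_sq P A hP hPP hrk hA, hAA]
    have h3 : (trace (P * A)).im = 0 := by
      rw [← Complex.conj_eq_iff_im]
      exact trace_real P A hP hA
    rw [Complex.sq_norm, Complex.normSq_apply, h3]
    nlinarith [sq_nonneg ((trace (P * A)).re - 1 / 2)]
  have key : trace (R * ((1 - (2 : ℂ) • P) * A * (1 - (2 : ℂ) • P))) - trace (R * A)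
      = -2 * (trace (Xᴴ * Y) + trace (Yᴴ * X)) := by
    rw [hXY, hYX]
    have e1 : R * ((1 - (2 : ℂ) • P) * A * (1 - (2 : ℂ) • P))
        = R * A - (2 : ℂ) • (R * P * A) - (2 : ℂ) • (R * A * P) + (4 : ℂ) • (R * P * A * P) := by
      simp only [mul_sub, sub_mul, mul_one, one_mul, Matrix.smul_mul, Matrix.mul_smul,
        Matrix.mul_assoc, smul_smul]
      norm_num
      abel
    rw [e1]
    simp only [Matrix.trace_add, Matrix.trace_sub, Matrix.trace_smul, smul_eq_mul]
    have c1 : trace (R * P * A) = trace (P * (A * R)) := by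
      rw [Matrix.mul_assoc, Matrix.trace_mul_comm R]; simp only [Matrix.mul_assoc]
    have c2 : trace (R * A * P) = trace (P * (R * A)) := by
      rw [Matrix.trace_mul_comm]
    have c3 : trace (A * P * R * P) = trace (R * P * A * P) := by
      rw [Matrix.mul_assoc (A * P) R P, Matrix.trace_mul_comm (A * P)]
      simp only [Matrix.mul_assoc]
    rw [c1, c2, c3]
    ring
  rw [key, norm_mul]
  have n1 := norm_trace_conjTranspose_mul_le X Y
  have n2 := norm_trace_conjTranspose_mul_le Y X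
  have s1 : Real.sqrt (trace (Xᴴ * X)).re ≤ v := by
    rw [show v = Real.sqrt (v ^ 2) from (Real.sqrt_sq hv0).symm]
    exact Real.sqrt_le_sqrt hXX
  have s2 : Real.sqrt (trace (Yᴴ * Y)).re ≤ 1 / 2 := by
    rw [show (1 / 2 : ℝ) = Real.sqrt ((1 / 2) ^ 2) from (Real.sqrt_sq (by norm_num)).symm]
    exact Real.sqrt_le_sqrt hYY
  have s3 := Real.sqrt_nonneg (trace (Xᴴ * X)).re
  have s4 := Real.sqrt_nonneg (trace (Yᴴ * Y)).re
  have n3 := norm_add_le (trace (Xᴴ * Y)) (trace (Yᴴ * X))
  have n4 : Real.sqrt (trace (Xᴴ * X)).re * Real.sqrt (trace (Yᴴ * Y)).re ≤ v * (1 / 2) :=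
    mul_le_mul s1 s2 s4 hv0
  have n5 : ‖(-2 : ℂ)‖ = 2 := by simp
  rw [n5]
  nlinarith

end Vale.Agent.P368
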