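import Vale.Agent.P368.Trace
import Vale.Agent.P368.MatFacts

/-!
# P368: the bound for one block (one first-layer gate not containing the output qubit)
-/

namespace Vale.Agent.P368

open Matrix

/-- the decay rate per input qubit: `2 ^ (-1/2)` -/
noncomputable def rr : ℝ := Real.sqrt (1 / 2)

theorem rr_sq : rr ^ 2 = 1 / 2 := by
  unfold rr
  exact Real.sq_sqrt (by norm_num)

theorem rr_pos : 0 < rr := by
  unfold rr
  exact Real.sqrt_pos.mpr (by norm_num)

theorem rr_le_one : rr ≤ 1 := by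
  have h1 := rr_sq
  have h2 := rr_pos
  nlinarith

theorem half_le_rr : 1 / 2 ≤ rr := by
  have h1 := rr_sq
  have h2 := rr_pos
  nlinarith

section

variable {κ : Type} [Fintype κ] [DecidableEq κ]

/-- the unsigned density: maximally mixed on the inputs `J`, equal to `ρ` elsewhere -/
noncomputable def tau (J : Finset κ) (ρ : κ → M2) : κ → M2 :=
  fun i => if i ∈ J then (1 / 2 : ℂ) • (1 : M2) else ρ i

theorem bval_univ_eq (p ρ A : κ → M2) :
    bval Finset.univ p ρ A = trace (prodOp ρ * (refl p * prodOp A * refl p)) := by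
  rw [refl_mul_prodOp_mul_refl]
  simp only [mul_add, mul_sub, mul_smul_comm, prodOp_mul, trace_add, trace_sub, trace_smul,
    trace_prodOp, smul_eq_mul, bval]

theorem trace_prodOp_tau (J : Finset κ) (ρ : κ → M2) (hρ2 : ∀ i, i ∉ J → IsRP (ρ i)) :
    trace (prodOp (tau J ρ)) = 1 := by
  rw [trace_prodOp]
  apply Finset.prod_eq_one
  intro i _
  unfold tau
  by_cases hi : i ∈ J
  · simp [hi, trace_smul, trace_one]
  · simp only [hi, if_false]
    exact (hρ2 i hi).trace_eq

theorem trace_prodOp_rho (J : Finset κ) (ρ : κ → M2) (hρ1 : ∀ i ∈ J, IsInp (ρ i))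
    (hρ2 : ∀ i, i ∉ J → IsRP (ρ i)) :
    trace (prodOp ρ) = if J = ∅ then 1 else 0 := by
  rw [trace_prodOp]
  split_ifs with hJ
  · apply Finset.prod_eq_one
    intro i _
    exact (hρ2 i (by simp [hJ])).trace_eq
  · obtain ⟨i, hi⟩ := Finset.nonempty_iff_ne_empty.mpr hJ
    exact Finset.prod_eq_zero (Finset.mem_univ i) (hρ1 i hi).trace_eq

/-- `refl p * prodOp A * refl p` is a hermitian idempotent -/
theorem block_Y (p A : κ → M2) (hp : ∀ i, IsRP (p i)) (hA : ∀ i, A i = 1 ∨ IsRP (A i)) :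
    (refl p * prodOp A * refl p).IsHermitian ∧
      (refl p * prodOp A * refl p) * (refl p * prodOp A * refl p) =
        refl p * prodOp A * refl p := by
  have hg : RG.Ok ((Finset.univ, p) : RG κ) :=
    ⟨fun i _ => hp i, fun i hi => absurd (Finset.mem_univ i) hi⟩
  have h1 : (refl p)ᴴ = refl p := refl_isHermitian (Finset.univ, p) hg
  have h2 : refl p * refl p = 1 := refl_mul_self (Finset.univ, p) hg
  have h3 : (prodOp A)ᴴ = prodOp A := by
    have e : (fun i => (A i)ᴴ) = A := by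
      funext i
      rcases hA i with h | h
      · rw [h, conjTranspose_one]
      · exact h.isHermitian
    rw [prodOp_conjTranspose, e]
  have h4 : prodOp A * prodOp A = prodOp A := by
    have e : (fun i => A i * A i) = A := by
      funext i
      rcases hA i with h | h
      · rw [h, mul_one]
      · exact h.mul_self
    rw [prodOp_mul, e]
  generalize refl p = R at h1 h2 ⊢
  generalize prodOp A = B at h3 h4 ⊢
  constructor
  · unfold Matrix.IsHermitian
    rw [conjTranspose_mul, conjTranspose_mul, h1, h3, mul_assoc]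
  · calc R * B * R * (R * B * R)
        = R * B * (R * R) * B * R := by
          simp only [mul_assoc]
      _ = R * (B * B) * R := by
          rw [h2, mul_one, mul_assoc R]
      _ = _ := by rw [h4]

/-- the site constants -/
private noncomputable def cc (J : Finset κ) : κ → ℝ := fun i => if i ∈ J then 1 / 2 else 1

private theorem cc_prod_pos (J : Finset κ) : 0 < ∏ i, cc J i := by
  apply Finset.prod_pos
  intro i _
  unfold cc
  split_ifs <;> norm_num

private theorem tau_herm (J : Finset κ) (ρ : κ → M2)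
    (hρ2 : ∀ i, i ∉ J → IsRP (ρ i)) : (prodOp (tau J ρ))ᴴ = prodOp (tau J ρ) := by
  rw [prodOp_conjTranspose]
  congr 1
  funext i
  unfold tau
  by_cases hi : i ∈ J
  · simp only [hi, if_true]
    rw [conjTranspose_smul, conjTranspose_one]
    congr 1
    simp
  · simp only [hi, if_false]
    exact (hρ2 i hi).isHermitian

private theorem rho_herm (J : Finset κ) (ρ : κ → M2) (hρ1 : ∀ i ∈ J, IsInp (ρ i))
    (hρ2 : ∀ i, i ∉ J → IsRP (ρ i)) : (prodOp ρ)ᴴ = prodOp ρ := by
  rw [prodOp_conjTranspose]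
  congr 1
  funext i
  by_cases hi : i ∈ J
  · exact (hρ1 i hi).isHermitian
  · exact (hρ2 i hi).isHermitian

private theorem prod_cast (J : Finset κ) :
    (∏ i, ((cc J i : ℝ) : ℂ)) = ((∏ i, cc J i : ℝ) : ℂ) := by
  push_cast
  rfl

private theorem tau_tau (J : Finset κ) (ρ : κ → M2)
    (hρ2 : ∀ i, i ∉ J → IsRP (ρ i)) :
    prodOp (tau J ρ) * prodOp (tau J ρ) = ((∏ i, cc J i : ℝ) : ℂ) • prodOp (tau J ρ) := by
  rw [prodOp_mul, ← prod_cast, ← prodOp_smul]
  congr 1
  funext i
  unfold tau cc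
  by_cases hi : i ∈ J
  · simp only [hi, if_true]
    rw [smul_mul_assoc, one_mul]
    push_cast
    rfl
  · simp only [hi, if_false]
    rw [(hρ2 i hi).mul_self]
    simp

private theorem rho_rho (J : Finset κ) (ρ : κ → M2) (hρ1 : ∀ i ∈ J, IsInp (ρ i))
    (hρ2 : ∀ i, i ∉ J → IsRP (ρ i)) :
    prodOp ρ * prodOp ρ = ((∏ i, cc J i : ℝ) : ℂ) • prodOp (tau J ρ) := by
  rw [prodOp_mul, ← prod_cast, ← prodOp_smul]
  congr 1
  funext i
  unfold tau cc
  by_cases hi : i ∈ J
  · simp only [hi, if_true]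
    rw [(hρ1 i hi).mul_self, smul_smul]
    congr 1
    push_cast
    norm_num
  · simp only [hi, if_false]
    rw [(hρ2 i hi).mul_self]
    simp

private theorem tau_rho (J : Finset κ) (ρ : κ → M2)
    (hρ2 : ∀ i, i ∉ J → IsRP (ρ i)) :
    prodOp (tau J ρ) * prodOp ρ = ((∏ i, cc J i : ℝ) : ℂ) • prodOp ρ := by
  rw [prodOp_mul, ← prod_cast, ← prodOp_smul]
  congr 1
  funext i
  unfold tau cc
  by_cases hi : i ∈ J
  · simp only [hi, if_true]
    rw [smul_mul_assoc, one_mul]
    push_cast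
    rfl
  · simp only [hi, if_false]
    rw [(hρ2 i hi).mul_self]
    simp

private theorem rho_tau (J : Finset κ) (ρ : κ → M2)
    (hρ2 : ∀ i, i ∉ J → IsRP (ρ i)) :
    prodOp ρ * prodOp (tau J ρ) = ((∏ i, cc J i : ℝ) : ℂ) • prodOp ρ := by
  rw [prodOp_mul, ← prod_cast, ← prodOp_smul]
  congr 1
  funext i
  unfold tau cc
  by_cases hi : i ∈ J
  · simp only [hi, if_true]
    rw [mul_smul_comm, mul_one]
    push_cast
    rfl
  · simp only [hi, if_false]
    rw [(hρ2 i hi).mul_self]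
    simp

theorem block_pos_add (J : Finset κ) (ρ : κ → M2) (hρ1 : ∀ i ∈ J, IsInp (ρ i))
    (hρ2 : ∀ i, i ∉ J → IsRP (ρ i)) (Y : Op κ) (hY : Y.IsHermitian) (hYY : Y * Y = Y) :
    (trace ((prodOp (tau J ρ) + prodOp ρ) * Y)).im = 0 ∧
      0 ≤ (trace ((prodOp (tau J ρ) + prodOp ρ) * Y)).re ∧
      (trace ((prodOp (tau J ρ) + prodOp ρ) * Y)).re ≤
        (trace (prodOp (tau J ρ) + prodOp ρ)).re := by
  apply pos_trace _ Y (2 * ∏ i, cc J i) (by have := cc_prod_pos J; positivity) _ _ hY hYY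
  · unfold Matrix.IsHermitian
    rw [conjTranspose_add, tau_herm J ρ hρ2, rho_herm J ρ hρ1 hρ2]
  · rw [add_mul, mul_add, mul_add, tau_tau J ρ hρ2, rho_rho J ρ hρ1 hρ2, tau_rho J ρ hρ2,
      rho_tau J ρ hρ2]
    push_cast
    rw [mul_smul, two_smul, smul_add]
    abel

theorem block_pos_sub (J : Finset κ) (ρ : κ → M2) (hρ1 : ∀ i ∈ J, IsInp (ρ i))
    (hρ2 : ∀ i, i ∉ J → IsRP (ρ i)) (Y : Op κ) (hY : Y.IsHermitian) (hYY : Y * Y = Y) :
    (trace ((prodOp (tau J ρ) - prodOp ρ) * Y)).im = 0 ∧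
      0 ≤ (trace ((prodOp (tau J ρ) - prodOp ρ) * Y)).re ∧
      (trace ((prodOp (tau J ρ) - prodOp ρ) * Y)).re ≤
        (trace (prodOp (tau J ρ) - prodOp ρ)).re := by
  apply pos_trace _ Y (2 * ∏ i, cc J i) (by have := cc_prod_pos J; positivity) _ _ hY hYY
  · unfold Matrix.IsHermitian
    rw [conjTranspose_sub, tau_herm J ρ hρ2, rho_herm J ρ hρ1 hρ2]
  · rw [sub_mul, mul_sub, mul_sub, tau_tau J ρ hρ2, rho_rho J ρ hρ1 hρ2, tau_rho J ρ hρ2,
      rho_tau J ρ hρ2]
    push_cast
    rw [mul_smul, two_smul, smul_sub]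
    abel

/-- first bound: at most `1`, and at most `1/2` as soon as the block contains an input -/
theorem block_half (J : Finset κ) (p ρ A : κ → M2) (hp : ∀ i, IsRP (p i))
    (hρ1 : ∀ i ∈ J, IsInp (ρ i)) (hρ2 : ∀ i, i ∉ J → IsRP (ρ i))
    (hA : ∀ i, A i = 1 ∨ IsRP (A i)) :
    ‖bval Finset.univ p ρ A‖ ≤ 1 ∧ (J.Nonempty → ‖bval Finset.univ p ρ A‖ ≤ 1 / 2) := by
  obtain ⟨hY, hYY⟩ := block_Y p A hp hA
  set Y := refl p * prodOp A * refl p with hYdef
  obtain ⟨a1, a2, a3⟩ := block_pos_add J ρ hρ1 hρ2 Y hY hYY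
  obtain ⟨b1, b2, b3⟩ := block_pos_sub J ρ hρ1 hρ2 Y hY hYY
  rw [trace_add, trace_prodOp_tau J ρ hρ2, trace_prodOp_rho J ρ hρ1 hρ2] at a3
  rw [trace_sub, trace_prodOp_tau J ρ hρ2, trace_prodOp_rho J ρ hρ1 hρ2] at b3
  set a := trace ((prodOp (tau J ρ) + prodOp ρ) * Y) with ha
  set b := trace ((prodOp (tau J ρ) - prodOp ρ) * Y) with hb
  have key : bval Finset.univ p ρ A = (((a.re - b.re) / 2 : ℝ) : ℂ) := by
    rw [bval_univ_eq]
    have hab : a - b = 2 * trace (prodOp ρ * Y) := by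
      rw [ha, hb, add_mul, sub_mul, trace_add, trace_sub]
      ring
    have h2 : trace (prodOp ρ * Y) = (a - b) / 2 := by
      rw [hab]; ring
    rw [h2]
    apply Complex.ext
    · simp
    · simp [a1, b1]
  rw [key, Complex.norm_real, Real.norm_eq_abs]
  constructor
  · by_cases hJ : J = ∅
    · simp only [hJ, if_true] at a3 b3
      simp at a3 b3
      rw [abs_le]
      constructor <;> linarith
    · simp only [hJ, if_false] at a3 b3
      simp at a3 b3
      rw [abs_le]
      constructor <;> linarith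
  · intro hJ
    have hJ' : J ≠ ∅ := Finset.nonempty_iff_ne_empty.mp hJ
    simp only [hJ', if_false] at a3 b3
    simp at a3 b3
    rw [abs_le]
    constructor <;> linarith

end

end Vale.Agent.P368
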