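import Vale.Agent.P368.Block1

/-!
# P368: the bound for one block, second bound
-/

namespace Vale.Agent.P368

open Matrix

section

variable {κ : Type} [Fintype κ] [DecidableEq κ]

private theorem prodOp_isHermitian (A : κ → M2) (h : ∀ i, (A i).IsHermitian) :
    (prodOp A).IsHermitian := by
  unfold Matrix.IsHermitian
  rw [prodOp_conjTranspose]
  congr 1
  funext i
  exact h i

private theorem prodOp_idem (A : κ → M2) (h : ∀ i, A i * A i = A i) :
    prodOp A * prodOp A = prodOp A := by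
  rw [prodOp_mul]
  congr 1
  funext i
  exact h i

private theorem herm_of_one_or_RP {a : M2} (h : a = 1 ∨ IsRP a) : a.IsHermitian := by
  rcases h with h | h
  · rw [h]; exact Matrix.isHermitian_one
  · exact h.isHermitian

private theorem idem_of_one_or_RP {a : M2} (h : a = 1 ∨ IsRP a) : a * a = a := by
  rcases h with h | h
  · rw [h]; simp
  · exact h.mul_self

private theorem trace_prodOp_mul (A B : κ → M2) :
    trace (prodOp A * prodOp B) = ∏ i, trace (A i * B i) := by
  rw [prodOp_mul, trace_prodOp]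

private theorem norm_prod_le_pow (J : Finset κ) (f : κ → ℂ) (c : ℝ)
    (h1 : ∀ i ∈ J, ‖f i‖ ≤ c) (h2 : ∀ i, i ∉ J → ‖f i‖ ≤ 1) :
    ‖∏ i, f i‖ ≤ c ^ J.card := by
  rw [norm_prod]
  calc ∏ i, ‖f i‖ ≤ ∏ i, (if i ∈ J then c else 1) := by
        apply Finset.prod_le_prod
        · intro i _; exact norm_nonneg _
        · intro i _
          split_ifs with h
          · exact h1 i h
          · exact h2 i h
    _ = c ^ J.card := by
        rw [Finset.prod_ite_mem]
        simp

omit [Fintype κ] in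
private theorem rho_herm (J : Finset κ) (ρ : κ → M2)
    (hρ1 : ∀ i ∈ J, IsInp (ρ i)) (hρ2 : ∀ i, i ∉ J → IsRP (ρ i)) (i : κ) :
    (ρ i).IsHermitian := by
  by_cases h : i ∈ J
  · exact (hρ1 i h).isHermitian
  · exact (hρ2 i h).isHermitian

/-- second bound, case 1: some input site carries the identity -/
theorem block_pow_one (J : Finset κ) (p ρ A : κ → M2) (hp : ∀ i, IsRP (p i))
    (hρ1 : ∀ i ∈ J, IsInp (ρ i)) (hρ2 : ∀ i, i ∉ J → IsRP (ρ i))
    (hA : ∀ i, A i = 1 ∨ IsRP (A i)) (h1 : ∃ i ∈ J, A i = 1) :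
    ‖bval Finset.univ p ρ A‖ ≤ 2 * (1 / 2) ^ J.card := by
  have h0 : trace (prodOp ρ * prodOp A) = 0 := by
    rw [trace_prodOp_mul]
    obtain ⟨i, hiJ, hi⟩ := h1
    apply Finset.prod_eq_zero (Finset.mem_univ i)
    rw [hi, mul_one]
    exact (hρ1 i hiJ).trace_eq
  have hv : (trace (prodOp p * (prodOp ρ * prodOp ρ))).re - ‖trace (prodOp p * prodOp ρ)‖ ^ 2
      ≤ ((1 / 2 : ℝ) ^ J.card) ^ 2 := by
    have e1 : ‖trace (prodOp p * (prodOp ρ * prodOp ρ))‖ ≤ (1 / 4 : ℝ) ^ J.card := by
      rw [prodOp_mul, trace_prodOp_mul]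
      apply norm_prod_le_pow
      · intro i hi
        rw [(hρ1 i hi).mul_self, Matrix.mul_smul, mul_one, Matrix.trace_smul, (hp i).trace_eq]
        simp
      · intro i hi
        rw [(hρ2 i hi).mul_self]
        exact ((hp i).isRC.mul (hρ2 i hi).isRC).norm_trace_le
    have e2 := Complex.re_le_norm (trace (prodOp p * (prodOp ρ * prodOp ρ)))
    have e3 : ((1 / 2 : ℝ) ^ J.card) ^ 2 = (1 / 4 : ℝ) ^ J.card := by
      rw [← pow_mul, mul_comm, pow_mul]; norm_num
    rw [e3]
    nlinarith [sq_nonneg ‖trace (prodOp p * prodOp ρ)‖]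
  have key := refl_trace_bound (prodOp p) (prodOp ρ) (prodOp A)
    (prodOp_isHermitian p (fun i => (hp i).isHermitian))
    (prodOp_idem p (fun i => (hp i).mul_self))
    (prodOp_rankOne p hp)
    (by rw [trace_prodOp]; exact Finset.prod_eq_one (fun i _ => (hp i).trace_eq))
    (prodOp_isHermitian ρ (rho_herm J ρ hρ1 hρ2))
    (prodOp_isHermitian A (fun i => herm_of_one_or_RP (hA i)))
    (prodOp_idem A (fun i => idem_of_one_or_RP (hA i)))
    ((1 / 2 : ℝ) ^ J.card) (by positivity) hv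
  rw [h0, sub_zero] at key
  rw [bval_univ_eq]
  exact key

omit [Fintype κ] in
private theorem tau_herm (J : Finset κ) (ρ : κ → M2)
    (hρ2 : ∀ i, i ∉ J → IsRP (ρ i)) (i : κ) :
    (tau J ρ i).IsHermitian := by
  unfold tau
  split_ifs with h
  · unfold Matrix.IsHermitian
    rw [Matrix.conjTranspose_smul, Matrix.conjTranspose_one]
    congr 1
    simp
  · exact (hρ2 i h).isHermitian

omit [Fintype κ] in
private theorem tau_mul_self (J : Finset κ) (ρ : κ → M2)
    (hρ2 : ∀ i, i ∉ J → IsRP (ρ i)) (i : κ) :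
    tau J ρ i * tau J ρ i = (if i ∈ J then (1 / 2 : ℂ) else 1) • tau J ρ i := by
  unfold tau
  split_ifs with h
  · rw [Matrix.smul_mul, one_mul]
  · rw [(hρ2 i h).mul_self, one_smul]

/-- second bound, case 2: all input sites carry rank one projectors -/
theorem block_pow_two (J : Finset κ) (p ρ A : κ → M2) (hp : ∀ i, IsRP (p i))
    (hρ1 : ∀ i ∈ J, IsInp (ρ i)) (hρ2 : ∀ i, i ∉ J → IsRP (ρ i))
    (hA : ∀ i, A i = 1 ∨ IsRP (A i)) (h2 : ∀ i ∈ J, IsRP (A i)) :
    ‖bval Finset.univ p ρ A‖ ≤ 2 * (1 / 2) ^ J.card := by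
  obtain ⟨hY, hYY⟩ := block_Y p A hp hA
  set Y := refl p * prodOp A * refl p with hYdef
  obtain ⟨a1, a2, -⟩ := block_pos_add J ρ hρ1 hρ2 Y hY hYY
  obtain ⟨b1, b2, -⟩ := block_pos_sub J ρ hρ1 hρ2 Y hY hYY
  rw [Matrix.add_mul, Matrix.trace_add] at a1 a2
  rw [Matrix.sub_mul, Matrix.trace_sub] at b1 b2
  simp only [Complex.add_im, Complex.add_re, Complex.sub_im, Complex.sub_re] at a1 a2 b1 b2
  set c : ℝ := (1 / 2 : ℝ) ^ J.card with hc
  have hc0 : 0 ≤ c := by positivity
  -- the norm of tr (rho Y) is at most Re tr (tau Y)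
  have s1 : ‖trace (prodOp ρ * Y)‖ ≤ (trace (prodOp (tau J ρ) * Y)).re := by
    have him : (trace (prodOp ρ * Y)).im = 0 := by linarith
    have : trace (prodOp ρ * Y) = (((trace (prodOp ρ * Y)).re : ℝ) : ℂ) := by
      apply Complex.ext
      · simp
      · simp [him]
    rw [this, Complex.norm_real, Real.norm_eq_abs, abs_le]
    constructor <;> linarith
  -- tau tau = c tau
  have htt : prodOp (tau J ρ) * prodOp (tau J ρ) = (c : ℂ) • prodOp (tau J ρ) := by
    rw [prodOp_mul]
    have : (fun i => tau J ρ i * tau J ρ i)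
        = fun i => (if i ∈ J then (1 / 2 : ℂ) else 1) • tau J ρ i := by
      funext i; exact tau_mul_self J ρ hρ2 i
    rw [this, prodOp_smul, Finset.prod_ite_mem]
    simp [hc]
  have hv : (trace (prodOp p * (prodOp (tau J ρ) * prodOp (tau J ρ)))).re
      - ‖trace (prodOp p * prodOp (tau J ρ))‖ ^ 2 ≤ (c / 2) ^ 2 := by
    rw [htt, Matrix.mul_smul, Matrix.trace_smul, smul_eq_mul, Complex.re_ofReal_mul]
    have e2 := Complex.re_le_norm (trace (prodOp p * prodOp (tau J ρ)))
    nlinarith [sq_nonneg (‖trace (prodOp p * prodOp (tau J ρ))‖ - c / 2),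
      mul_le_mul_of_nonneg_left e2 hc0]
  have key := refl_trace_bound (prodOp p) (prodOp (tau J ρ)) (prodOp A)
    (prodOp_isHermitian p (fun i => (hp i).isHermitian))
    (prodOp_idem p (fun i => (hp i).mul_self))
    (prodOp_rankOne p hp)
    (by rw [trace_prodOp]; exact Finset.prod_eq_one (fun i _ => (hp i).trace_eq))
    (prodOp_isHermitian _ (tau_herm J ρ hρ2))
    (prodOp_isHermitian A (fun i => herm_of_one_or_RP (hA i)))
    (prodOp_idem A (fun i => idem_of_one_or_RP (hA i)))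
    (c / 2) (by positivity) hv
  have s2 : ‖trace (prodOp (tau J ρ) * prodOp A)‖ ≤ c := by
    rw [trace_prodOp_mul]
    apply norm_prod_le_pow
    · intro i hi
      unfold tau
      rw [if_pos hi, Matrix.smul_mul, one_mul, Matrix.trace_smul, (h2 i hi).trace_eq]
      simp
    · intro i hi
      unfold tau
      rw [if_neg hi]
      rcases hA i with h | h
      · rw [h, mul_one, (hρ2 i hi).trace_eq]; simp
      · exact ((hρ2 i hi).isRC.mul h.isRC).norm_trace_le
  have s3 : (trace (prodOp (tau J ρ) * Y)).re ≤ 2 * c := by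
    have t1 := Complex.re_le_norm (trace (prodOp (tau J ρ) * Y))
    have t2 : ‖trace (prodOp (tau J ρ) * Y)‖ ≤
        ‖trace (prodOp (tau J ρ) * Y) - trace (prodOp (tau J ρ) * prodOp A)‖
          + ‖trace (prodOp (tau J ρ) * prodOp A)‖ := by
      have := norm_add_le (trace (prodOp (tau J ρ) * Y) - trace (prodOp (tau J ρ) * prodOp A))
        (trace (prodOp (tau J ρ) * prodOp A))
      rwa [sub_add_cancel] at this
    have t3 : ‖trace (prodOp (tau J ρ) * Y) - trace (prodOp (tau J ρ) * prodOp A)‖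
        ≤ 2 * (c / 2) := key
    linarith
  rw [bval_univ_eq]
  exact le_trans s1 s3

end

end Vale.Agent.P368
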