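import Vale.Agent.P368.Block2

/-!
# P368: the bound for one block, conclusion
-/

namespace Vale.Agent.P368

open Matrix

private theorem two_mul_half_pow_le (m : ℕ) (hm : 2 ≤ m) : 2 * (1 / 2 : ℝ) ^ m ≤ rr ^ m := by
  have h1 : (1 / 2 : ℝ) ^ m = rr ^ (2 * m) := by
    rw [pow_mul, rr_sq]
  have h2 : 2 * m = 2 + (2 * m - 2) := by omega
  have h3 : 2 * rr ^ (2 * m) = rr ^ (2 * m - 2) := by
    rw [h2, pow_add, rr_sq]
    have : 2 + (2 * m - 2) - 2 = 2 * m - 2 := by omega
    rw [this]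
    ring
  rw [h1, h3]
  exact pow_le_pow_of_le_one rr_pos.le rr_le_one (by omega)

section

variable {κ : Type} [Fintype κ] [DecidableEq κ]

theorem block_bound_univ (J : Finset κ) (p ρ A : κ → M2) (hp : ∀ i, IsRP (p i))
    (hρ1 : ∀ i ∈ J, IsInp (ρ i)) (hρ2 : ∀ i, i ∉ J → IsRP (ρ i))
    (hA : ∀ i, A i = 1 ∨ IsRP (A i)) :
    ‖bval Finset.univ p ρ A‖ ≤ rr ^ J.card := by
  have hh := block_half J p ρ A hp hρ1 hρ2 hA
  rcases Nat.lt_or_ge J.card 2 with hlt | hge
  · rcases Nat.eq_zero_or_pos J.card with h0 | hpos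
    · rw [h0, pow_zero]
      exact hh.1
    · have h1 : J.card = 1 := by omega
      rw [h1, pow_one]
      exact (hh.2 (Finset.card_pos.mp hpos)).trans half_le_rr
  · refine le_trans ?_ (two_mul_half_pow_le J.card hge)
    by_cases h1 : ∃ i ∈ J, A i = 1
    · exact block_pow_one J p ρ A hp hρ1 hρ2 hA h1
    · apply block_pow_two J p ρ A hp hρ1 hρ2 hA
      intro i hi
      rcases hA i with h | h
      · exact absurd ⟨i, hi, h⟩ h1
      · exact h

end

/-- the bound for a block `S` of a larger register -/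
theorem block_bound {ι : Type} [DecidableEq ι] (S I : Finset ι) (p ρ A : ι → M2)
    (hp : ∀ i ∈ S, IsRP (p i)) (hρ1 : ∀ i ∈ S, i ∈ I → IsInp (ρ i))
    (hρ2 : ∀ i ∈ S, i ∉ I → IsRP (ρ i)) (hA : ∀ i ∈ S, A i = 1 ∨ IsRP (A i)) :
    ‖bval S p ρ A‖ ≤ rr ^ (S ∩ I).card := by
  have hb : bval S p ρ A = bval (Finset.univ : Finset {i // i ∈ S}) (fun i => p i.1)
      (fun i => ρ i.1) (fun i => A i.1) := by
    unfold bval
    rw [← Finset.prod_coe_sort S (fun i => trace (ρ i * A i)),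
      ← Finset.prod_coe_sort S (fun i => trace (ρ i * (p i * A i))),
      ← Finset.prod_coe_sort S (fun i => trace (ρ i * (A i * p i))),
      ← Finset.prod_coe_sort S (fun i => trace (ρ i * (p i * A i * p i)))]
  have hcard : ((Finset.univ : Finset {i // i ∈ S}).filter (fun i => i.1 ∈ I)).card
      = (S ∩ I).card := by
    rw [← Finset.card_map (Function.Embedding.subtype _)]
    congr 1
    ext j
    simp only [Finset.mem_map, Finset.mem_filter, Finset.mem_univ, true_and,
      Function.Embedding.coe_subtype, Finset.mem_inter]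
    constructor
    · rintro ⟨a, ha, rfl⟩
      exact ⟨a.2, ha⟩
    · rintro ⟨h1, h2⟩
      exact ⟨⟨j, h1⟩, h2, rfl⟩
  rw [hb, ← hcard]
  apply block_bound_univ
  · intro i
    exact hp i.1 i.2
  · intro i hi
    exact hρ1 i.1 i.2 (Finset.mem_filter.mp hi).2
  · intro i hi
    apply hρ2 i.1 i.2
    intro h
    exact hi (Finset.mem_filter.mpr ⟨Finset.mem_univ _, h⟩)
  · intro i
    exact hA i.1 i.2

end Vale.Agent.P368
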