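import Vale.Agent.P368.TraceFormula
import Vale.Agent.P368.Block3

/-!
# P368: the bound for one product observable behind one layer of reflections
-/

namespace Vale.Agent.P368

open Matrix

variable {ι : Type} [Fintype ι] [DecidableEq ι]

/-- observables: identity or rank one projector away from `q`, a rank one contraction at `q` -/
def Cls (q : ι) (A : ι → M2) : Prop := (∀ i, i ≠ q → A i = 1 ∨ IsRP (A i)) ∧ IsRC (A q)

/-- signed densities: inputs on `I`, pure states elsewhere -/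
def RhoCls (I : Finset ι) (ρ : ι → M2) : Prop :=
  (∀ i ∈ I, IsInp (ρ i)) ∧ ∀ i, i ∉ I → IsRP (ρ i)

omit [Fintype ι] in
private theorem site_bound (I : Finset ι) (ρ : ι → M2) (hρ : RhoCls I ρ) (i : ι) (X : M2)
    (hX : X = 1 ∨ IsRC X) : ‖trace (ρ i * X)‖ ≤ if i ∈ I then rr else 1 := by
  by_cases hi : i ∈ I
  · rw [if_pos hi]
    rcases hX with rfl | hX
    · rw [mul_one, (hρ.1 i hi).trace_eq, norm_zero]
      exact rr_pos.le
    · exact ((hρ.1 i hi).norm_trace_mul_le hX).trans half_le_rr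
  · rw [if_neg hi]
    rcases hX with rfl | hX
    · rw [mul_one, (hρ.2 i hi).trace_eq, norm_one]
    · exact ((hρ.2 i hi).isRC.mul hX).norm_trace_le

omit [Fintype ι] in
private theorem prod_rr (S I : Finset ι) :
    ∏ i ∈ S, (if i ∈ I then rr else 1) = rr ^ (S ∩ I).card := by
  rw [Finset.prod_ite, Finset.prod_const, Finset.prod_const_one, mul_one,
    Finset.filter_mem_eq_inter]

omit [Fintype ι] in
private theorem prod_bound (S I : Finset ι) (ρ : ι → M2) (hρ : RhoCls I ρ) (X : ι → M2)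
    (hX : ∀ i ∈ S, X i = 1 ∨ IsRC (X i)) :
    ‖∏ i ∈ S, trace (ρ i * X i)‖ ≤ rr ^ (S ∩ I).card := by
  rw [norm_prod, ← prod_rr]
  exact Finset.prod_le_prod (fun i _ => norm_nonneg _)
    (fun i hi => site_bound I ρ hρ i (X i) (hX i hi))

omit [Fintype ι] in
private theorem Cls.one_or_rc {q : ι} {A : ι → M2} (hA : Cls q A) (i : ι) :
    A i = 1 ∨ IsRC (A i) := by
  by_cases hi : i = q
  · subst hi
    exact Or.inr hA.2
  · rcases hA.1 i hi with h | h
    · exact Or.inl h
    · exact Or.inr h.isRC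

/-- the crude bound for the block containing the output qubit -/
theorem block_crude (S I : Finset ι) (p ρ A : ι → M2) (q : ι) (hp : ∀ i ∈ S, IsRP (p i))
    (hρ : RhoCls I ρ) (hA : Cls q A) :
    ‖bval S p ρ A‖ ≤ 9 * rr ^ (S ∩ I).card := by
  have h1 := prod_bound S I ρ hρ A (fun i _ => hA.one_or_rc i)
  have h2 := prod_bound S I ρ hρ (fun i => p i * A i) (fun i hi => by
    rcases hA.one_or_rc i with h | h
    · right; simp only [h, mul_one]; exact (hp i hi).isRC
    · right; exact (hp i hi).isRC.mul h)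
  have h3 := prod_bound S I ρ hρ (fun i => A i * p i) (fun i hi => by
    rcases hA.one_or_rc i with h | h
    · right; simp only [h, one_mul]; exact (hp i hi).isRC
    · right; exact h.mul (hp i hi).isRC)
  have h4 := prod_bound S I ρ hρ (fun i => p i * A i * p i) (fun i hi => by
    rcases hA.one_or_rc i with h | h
    · right; simp only [h, mul_one]; exact (hp i hi).isRC.mul (hp i hi).isRC
    · right; exact ((hp i hi).isRC.mul h).mul (hp i hi).isRC)
  unfold bval
  set a := ∏ i ∈ S, trace (ρ i * A i)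
  set b := ∏ i ∈ S, trace (ρ i * (p i * A i))
  set c := ∏ i ∈ S, trace (ρ i * (A i * p i))
  set d := ∏ i ∈ S, trace (ρ i * (p i * A i * p i))
  have n1 : ‖a - 2 * b - 2 * c + 4 * d‖ ≤ ‖a‖ + 2 * ‖b‖ + 2 * ‖c‖ + 4 * ‖d‖ := by
    calc ‖a - 2 * b - 2 * c + 4 * d‖ ≤ ‖a - 2 * b - 2 * c‖ + ‖4 * d‖ := norm_add_le _ _
      _ ≤ ‖a - 2 * b‖ + ‖2 * c‖ + ‖4 * d‖ := by gcongr; exact norm_sub_le _ _
      _ ≤ ‖a‖ + ‖2 * b‖ + ‖2 * c‖ + ‖4 * d‖ := by gcongr; exact norm_sub_le _ _
      _ = ‖a‖ + 2 * ‖b‖ + 2 * ‖c‖ + 4 * ‖d‖ := by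
        rw [norm_mul, norm_mul, norm_mul]; norm_num
  linarith

/-- the weight of a site -/
private noncomputable def hw (I : Finset ι) (q : ι) (i : ι) : ℝ :=
  (if i = q then 9 else 1) * (if i ∈ I then rr else 1)

omit [Fintype ι] in
private theorem prod_hw (S I : Finset ι) (q : ι) :
    ∏ i ∈ S, hw I q i = (if q ∈ S then 9 else 1) * rr ^ (S ∩ I).card := by
  unfold hw
  rw [Finset.prod_mul_distrib, prod_rr, Finset.prod_ite_eq']

omit [Fintype ι] in
private theorem hw_nonneg (I : Finset ι) (q : ι) (i : ι) : 0 ≤ hw I q i := by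
  unfold hw
  have := rr_pos.le
  split_ifs <;> positivity

omit [Fintype ι] in
private theorem le_hw (I : Finset ι) (q : ι) (i : ι) : (if i ∈ I then rr else 1) ≤ hw I q i := by
  unfold hw
  have := rr_pos.le
  split_ifs <;> linarith

private theorem gate_bound (g : RG ι) (hg : RG.Ok g) (I : Finset ι) (ρ : ι → M2)
    (hρ : RhoCls I ρ) (q : ι) (A : ι → M2) (hA : Cls q A) :
    ‖bval g.1 g.2 ρ A‖ ≤ ∏ i ∈ g.1, hw I q i := by
  rw [prod_hw]
  by_cases hq : q ∈ g.1
  · rw [if_pos hq]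
    exact block_crude g.1 I g.2 ρ A q hg.1 hρ hA
  · rw [if_neg hq, one_mul]
    exact block_bound g.1 I g.2 ρ A hg.1 (fun i _ hi => hρ.1 i hi) (fun i _ hi => hρ.2 i hi)
      (fun i hi => hA.1 i (fun h => hq (h ▸ hi)))

omit [Fintype ι] in
private theorem disjoint_suppU (g : RG ι) (l : List (RG ι))
    (h : ∀ a ∈ l, Disjoint g.1 a.1) : Disjoint g.1 (suppU l) := by
  induction l with
  | nil => simp [suppU]
  | cons a l ih =>
    simp only [suppU]
    rw [Finset.disjoint_union_right]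
    exact ⟨h a (List.mem_cons_self), ih fun b hb => h b (List.mem_cons_of_mem _ hb)⟩

private theorem list_bound (l : List (RG ι)) (hl : GoodList l) (I : Finset ι) (ρ : ι → M2)
    (hρ : RhoCls I ρ) (q : ι) (A : ι → M2) (hA : Cls q A) :
    ‖(l.map (fun g => bval g.1 g.2 ρ A)).prod‖ ≤ ∏ i ∈ suppU l, hw I q i := by
  induction l with
  | nil => simp [suppU]
  | cons g l ih =>
    have hl' : GoodList l :=
      ⟨fun a ha => hl.1 a (List.mem_cons_of_mem _ ha), (List.pairwise_cons.1 hl.2).2⟩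
    have hd := disjoint_suppU g l (List.pairwise_cons.1 hl.2).1
    simp only [List.map_cons, List.prod_cons, suppU]
    rw [norm_mul, Finset.prod_union hd]
    exact mul_le_mul (gate_bound g (hl.1 g List.mem_cons_self) I ρ hρ q A hA) (ih hl')
      (norm_nonneg _) (Finset.prod_nonneg fun i _ => hw_nonneg I q i)

theorem layer_bound (l : List (RG ι)) (hl : GoodList l) (I : Finset ι) (ρ : ι → M2)
    (hρ : RhoCls I ρ) (q : ι) (A : ι → M2) (hA : Cls q A) :
    ‖trace (prodOp ρ * ((reflProd l)ᴴ * prodOp A * reflProd l))‖ ≤ 9 * rr ^ I.card := by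
  rw [trace_formula l hl ρ A, norm_mul, norm_prod]
  have h1 : ∏ i ∈ (suppU l)ᶜ, ‖trace (ρ i * A i)‖ ≤ ∏ i ∈ (suppU l)ᶜ, hw I q i :=
    Finset.prod_le_prod (fun i _ => norm_nonneg _)
      (fun i _ => (site_bound I ρ hρ i (A i) (hA.one_or_rc i)).trans (le_hw I q i))
  have h2 := list_bound l hl I ρ hρ q A hA
  have h3 : (∏ i ∈ (suppU l)ᶜ, hw I q i) * ∏ i ∈ suppU l, hw I q i = 9 * rr ^ I.card := by
    rw [Finset.prod_compl_mul_prod, prod_hw, if_pos (Finset.mem_univ q), Finset.univ_inter]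
  rw [← h3]
  exact mul_le_mul h1 h2 (norm_nonneg _) (Finset.prod_nonneg fun i _ => hw_nonneg I q i)

end Vale.Agent.P368
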