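import Vale.Agent.P368.Trace

/-!
# P368: the light cone of the output qubit
-/

namespace Vale.Agent.P368

open Matrix

variable {ι : Type} [Fintype ι] [DecidableEq ι]

private theorem reflProd_cons (g : RG ι) (l : List (RG ι)) :
    reflProd (g :: l) = refl g.2 * reflProd l := by
  simp [reflProd]

private theorem reflProd_commute (X : Op ι) (l : List (RG ι))
    (h : ∀ g ∈ l, refl g.2 * X = X * refl g.2) : reflProd l * X = X * reflProd l := by
  induction l with
  | nil => simp [reflProd]
  | cons g l ih =>
    rw [reflProd_cons, Matrix.mul_assoc, ih (fun k hk => h k (List.mem_cons_of_mem _ hk)),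
      ← Matrix.mul_assoc, h g List.mem_cons_self, Matrix.mul_assoc]

/-- The light cone of one site: conjugating a projector at site `q` by a layer of disjoint
reflections is the same as conjugating it by one reflection whose support contains `q`. -/
theorem cone (l : List (RG ι)) (hl : GoodList l) (q : ι) (e : M2) (he : IsRP e) :
    ∃ g : RG ι, RG.Ok g ∧ q ∈ g.1 ∧
      (reflProd l)ᴴ * prodOp (Function.update (fun _ => (1 : M2)) q e) * reflProd l =
        refl g.2 * prodOp (Function.update (fun _ => (1 : M2)) q e) * refl g.2 := by
  induction l with
  | nil =>
    refine ⟨({q}, Function.update (fun _ => (1 : M2)) q e), ⟨?_, ?_⟩, Finset.mem_singleton_self q,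
      ?_⟩
    · intro i hi
      rw [Finset.mem_singleton] at hi
      subst hi
      simpa using he
    · intro i hi
      rw [Finset.mem_singleton] at hi
      simp [Function.update_of_ne hi]
    · have hp : (fun i => Function.update (fun _ => (1 : M2)) q e i *
          Function.update (fun _ => (1 : M2)) q e i) = Function.update (fun _ => (1 : M2)) q e := by
        funext i
        by_cases hi : i = q
        · subst hi
          simpa using he.mul_self
        · simp [Function.update_of_ne hi]
      have h1 : prodOp (Function.update (fun _ => (1 : M2)) q e) *
          prodOp (Function.update (fun _ => (1 : M2)) q e) =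
          prodOp (Function.update (fun _ => (1 : M2)) q e) := by
        rw [prodOp_mul, hp]
      have h0 : reflProd ([] : List (RG ι)) = 1 := by simp [reflProd]
      rw [h0, conjTranspose_one, Matrix.one_mul, Matrix.mul_one]
      unfold refl
      simp only [sub_mul, mul_sub, one_mul, mul_one, smul_mul_assoc, mul_smul_comm, smul_sub,
        smul_smul, h1]
      norm_num
      module
  | cons g l ih =>
    have hg : RG.Ok g := hl.1 g (List.mem_cons_self)
    have hl' : GoodList l :=
      ⟨fun h hh => hl.1 h (List.mem_cons_of_mem _ hh), (List.pairwise_cons.1 hl.2).2⟩
    have hdis : ∀ h ∈ l, Disjoint g.1 h.1 := (List.pairwise_cons.1 hl.2).1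
    have e1 : (reflProd (g :: l))ᴴ * prodOp (Function.update (fun _ => (1 : M2)) q e) *
        reflProd (g :: l) = (reflProd l)ᴴ *
          (refl g.2 * prodOp (Function.update (fun _ => (1 : M2)) q e) * refl g.2) *
          reflProd l := by
      rw [reflProd_cons, conjTranspose_mul, refl_isHermitian g hg]
      simp only [Matrix.mul_assoc]
    by_cases hq : q ∈ g.1
    · refine ⟨g, hg, hq, ?_⟩
      rw [e1]
      have hc : reflProd l *
          (refl g.2 * prodOp (Function.update (fun _ => (1 : M2)) q e) * refl g.2) =
          (refl g.2 * prodOp (Function.update (fun _ => (1 : M2)) q e) * refl g.2) *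
            reflProd l := by
        apply reflProd_commute
        intro h hh
        have hok : RG.Ok h := hl'.1 h hh
        have hd := hdis h hh
        have c1 : refl h.2 * refl g.2 = refl g.2 * refl h.2 := by
          apply refl_commute_refl
          intro i
          by_cases hi : i ∈ h.1
          · right
            exact hg.2 i (fun hgi => (Finset.disjoint_left.1 hd) hgi hi)
          · left
            exact hok.2 i hi
        have c2 : refl h.2 * prodOp (Function.update (fun _ => (1 : M2)) q e) =
            prodOp (Function.update (fun _ => (1 : M2)) q e) * refl h.2 := by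
          apply refl_commute_prodOp
          intro i
          by_cases hi : i = q
          · left
            subst hi
            exact hok.2 i (fun hhi => (Finset.disjoint_left.1 hd) hq hhi)
          · right
            simp [Function.update_of_ne hi]
        calc refl h.2 * (refl g.2 * prodOp (Function.update (fun _ => (1 : M2)) q e) * refl g.2)
            = (refl h.2 * refl g.2) * prodOp (Function.update (fun _ => (1 : M2)) q e) *
                refl g.2 := by simp only [Matrix.mul_assoc]
          _ = refl g.2 * (refl h.2 * prodOp (Function.update (fun _ => (1 : M2)) q e)) *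
                refl g.2 := by rw [c1]; simp only [Matrix.mul_assoc]
          _ = refl g.2 * prodOp (Function.update (fun _ => (1 : M2)) q e) *
                (refl h.2 * refl g.2) := by rw [c2]; simp only [Matrix.mul_assoc]
          _ = (refl g.2 * prodOp (Function.update (fun _ => (1 : M2)) q e) * refl g.2) *
                refl h.2 := by rw [c1]; simp only [Matrix.mul_assoc]
      rw [Matrix.mul_assoc, ← hc, ← Matrix.mul_assoc, reflProd_conjTranspose_mul_self l hl',
        Matrix.one_mul]
    · obtain ⟨k, hk, hqk, hkeq⟩ := ih hl'
      refine ⟨k, hk, hqk, ?_⟩
      rw [e1]
      have c2 : refl g.2 * prodOp (Function.update (fun _ => (1 : M2)) q e) =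
          prodOp (Function.update (fun _ => (1 : M2)) q e) * refl g.2 := by
        apply refl_commute_prodOp
        intro i
        by_cases hi : i = q
        · left
          subst hi
          exact hg.2 i hq
        · right
          simp [Function.update_of_ne hi]
      rw [c2, Matrix.mul_assoc (prodOp _) (refl g.2) (refl g.2), refl_mul_self g hg,
        Matrix.mul_one, hkeq]

end Vale.Agent.P368
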