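import Vale.Agent.P368.Bound
import Vale.Agent.P368.Cone

/-!
# P368: the bound for circuits in normal form
-/

namespace Vale.Agent.P368

open Matrix

variable {ι : Type} [Fintype ι] [DecidableEq ι]

private theorem conj_prodOp (w A : ι → M2) :
    (prodOp w)ᴴ * prodOp A * prodOp w = prodOp (fun i => (w i)ᴴ * A i * w i) := by
  rw [prodOp_conjTranspose, prodOp_mul, prodOp_mul]

private theorem conj_prodOp' (w A : ι → M2) :
    prodOp w * prodOp A * (prodOp w)ᴴ = prodOp (fun i => w i * A i * (w i)ᴴ) := by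
  rw [prodOp_conjTranspose, prodOp_mul, prodOp_mul]

private theorem ct_mul_self {w : M2} (hw : w ∈ unitaryGroup Bool ℂ) : wᴴ * w = 1 := by
  have := mem_unitaryGroup_iff'.1 hw
  rwa [star_eq_conjTranspose] at this

private theorem ct_mem {w : M2} (hw : w ∈ unitaryGroup Bool ℂ) : wᴴ ∈ unitaryGroup Bool ℂ := by
  rw [mem_unitaryGroup_iff, star_eq_conjTranspose, conjTranspose_conjTranspose]
  exact ct_mul_self hw

private theorem Cls.conj {q : ι} {A : ι → M2} (hA : Cls q A) (w : ι → M2)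
    (hw : ∀ i, w i ∈ unitaryGroup Bool ℂ) : Cls q (fun i => (w i)ᴴ * A i * w i) := by
  constructor
  · intro i hi
    rcases hA.1 i hi with h | h
    · left
      show (w i)ᴴ * A i * w i = 1
      rw [h, Matrix.mul_one, ct_mul_self (hw i)]
    · right
      have := h.conj (ct_mem (hw i))
      rwa [conjTranspose_conjTranspose] at this
  · have := hA.2.conj (ct_mem (hw q))
    rwa [conjTranspose_conjTranspose] at this

private theorem RhoCls.conj {I : Finset ι} {ρ : ι → M2} (hρ : RhoCls I ρ) (w : ι → M2)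
    (hw : ∀ i, w i ∈ unitaryGroup Bool ℂ) : RhoCls I (fun i => w i * ρ i * (w i)ᴴ) :=
  ⟨fun i hi => (hρ.1 i hi).conj (hw i), fun i hi => (hρ.2 i hi).conj (hw i)⟩

private theorem one_term (w0 w1 : ι → M2) (l1 : List (RG ι))
    (h0 : ∀ i, w0 i ∈ unitaryGroup Bool ℂ) (h1 : ∀ i, w1 i ∈ unitaryGroup Bool ℂ)
    (hl1 : GoodList l1) (I : Finset ι) (ρ : ι → M2) (hρ : RhoCls I ρ) (q : ι) (A : ι → M2)
    (hA : Cls q A) :
    ‖trace (prodOp ρ * ((prodOp w0)ᴴ * ((reflProd l1)ᴴ *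
      ((prodOp w1)ᴴ * prodOp A * prodOp w1) * reflProd l1) * prodOp w0))‖ ≤ 9 * rr ^ I.card := by
  rw [conj_prodOp]
  set Y := (reflProd l1)ᴴ * prodOp (fun i => (w1 i)ᴴ * A i * w1 i) * reflProd l1 with hY
  have hcyc : trace (prodOp ρ * ((prodOp w0)ᴴ * Y * prodOp w0)) =
      trace (prodOp (fun i => w0 i * ρ i * (w0 i)ᴴ) * Y) := by
    rw [← conj_prodOp']
    have e1 : prodOp ρ * ((prodOp w0)ᴴ * Y * prodOp w0) =
        (prodOp ρ * (prodOp w0)ᴴ * Y) * prodOp w0 := by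
      simp only [Matrix.mul_assoc]
    rw [e1, Matrix.trace_mul_comm]
    simp only [Matrix.mul_assoc]
  rw [hcyc]
  exact layer_bound l1 hl1 I _ (hρ.conj w0 h0) q _ (hA.conj w1 h1)

theorem core_bound (w0 w1 w2 : ι → M2) (l1 l2 : List (RG ι))
    (h0 : ∀ i, w0 i ∈ unitaryGroup Bool ℂ) (h1 : ∀ i, w1 i ∈ unitaryGroup Bool ℂ)
    (h2 : ∀ i, w2 i ∈ unitaryGroup Bool ℂ) (hl1 : GoodList l1) (hl2 : GoodList l2)
    (I : Finset ι) (ρ : ι → M2) (hρ : RhoCls I ρ) (q : ι) (e : M2) (he : IsRP e) :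
    ‖trace (prodOp ρ *
      ((prodOp w2 * reflProd l2 * prodOp w1 * reflProd l1 * prodOp w0)ᴴ *
        prodOp (Function.update (fun _ => (1 : M2)) q e) *
        (prodOp w2 * reflProd l2 * prodOp w1 * reflProd l1 * prodOp w0)))‖ ≤
      81 * rr ^ I.card := by
  -- reassociate
  have hre : (prodOp w2 * reflProd l2 * prodOp w1 * reflProd l1 * prodOp w0)ᴴ *
        prodOp (Function.update (fun _ => (1 : M2)) q e) *
        (prodOp w2 * reflProd l2 * prodOp w1 * reflProd l1 * prodOp w0) =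
      (prodOp w0)ᴴ * ((reflProd l1)ᴴ * ((prodOp w1)ᴴ * ((reflProd l2)ᴴ *
        ((prodOp w2)ᴴ * prodOp (Function.update (fun _ => (1 : M2)) q e) * prodOp w2) *
        reflProd l2) * prodOp w1) * reflProd l1) * prodOp w0 := by
    simp only [conjTranspose_mul, Matrix.mul_assoc]
  rw [hre, conj_prodOp]
  -- the conjugated projector at site q
  set e' : M2 := (w2 q)ᴴ * e * w2 q with he'
  have hRP : IsRP e' := by
    have := he.conj (ct_mem (h2 q))
    rwa [conjTranspose_conjTranspose] at this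
  have hupd : (fun i => (w2 i)ᴴ * (Function.update (fun _ => (1 : M2)) q e) i * w2 i) =
      Function.update (fun _ => (1 : M2)) q e' := by
    funext i
    by_cases hi : i = q
    · subst hi
      simp [he']
    · rw [Function.update_of_ne hi, Function.update_of_ne hi, Matrix.mul_one,
        ct_mul_self (h2 i)]
  rw [hupd]
  obtain ⟨g, hg, hq, hcone⟩ := cone l2 hl2 q e' hRP
  rw [hcone, refl_mul_prodOp_mul_refl]
  set A0 : ι → M2 := Function.update (fun _ => (1 : M2)) q e' with hA0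
  have hA0q : A0 q = e' := by simp [hA0]
  have hA0i : ∀ i, i ≠ q → A0 i = 1 := fun i hi => by simp [hA0, Function.update_of_ne hi]
  have hgq : IsRP (g.2 q) := hg.1 q hq
  have hgi : ∀ i, g.2 i = 1 ∨ IsRP (g.2 i) := by
    intro i
    by_cases hi : i ∈ g.1
    · exact Or.inr (hg.1 i hi)
    · exact Or.inl (hg.2 i hi)
  have c0 : Cls q A0 := ⟨fun i hi => Or.inl (hA0i i hi), by rw [hA0q]; exact hRP.isRC⟩
  have c1 : Cls q (fun i => g.2 i * A0 i) := by
    refine ⟨fun i hi => ?_, ?_⟩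
    · show g.2 i * A0 i = 1 ∨ IsRP (g.2 i * A0 i)
      rw [hA0i i hi, Matrix.mul_one]
      exact hgi i
    · show IsRC (g.2 q * A0 q)
      rw [hA0q]
      exact hgq.isRC.mul hRP.isRC
  have c2 : Cls q (fun i => A0 i * g.2 i) := by
    refine ⟨fun i hi => ?_, ?_⟩
    · show A0 i * g.2 i = 1 ∨ IsRP (A0 i * g.2 i)
      rw [hA0i i hi, Matrix.one_mul]
      exact hgi i
    · show IsRC (A0 q * g.2 q)
      rw [hA0q]
      exact hRP.isRC.mul hgq.isRC
  have c3 : Cls q (fun i => g.2 i * A0 i * g.2 i) := by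
    refine ⟨fun i hi => ?_, ?_⟩
    · show g.2 i * A0 i * g.2 i = 1 ∨ IsRP (g.2 i * A0 i * g.2 i)
      rw [hA0i i hi, Matrix.mul_one]
      rcases hgi i with h | h
      · left
        rw [h, Matrix.mul_one]
      · right
        rw [h.mul_self]
        exact h
    · show IsRC (g.2 q * A0 q * g.2 q)
      rw [hA0q]
      exact (hgq.isRC.mul hRP.isRC).mul hgq.isRC
  have b0 := one_term w0 w1 l1 h0 h1 hl1 I ρ hρ q _ c0
  have b1 := one_term w0 w1 l1 h0 h1 hl1 I ρ hρ q _ c1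
  have b2 := one_term w0 w1 l1 h0 h1 hl1 I ρ hρ q _ c2
  have b3 := one_term w0 w1 l1 h0 h1 hl1 I ρ hρ q _ c3
  set Φ : Op ι → ℂ := fun X => trace (prodOp ρ * ((prodOp w0)ᴴ * ((reflProd l1)ᴴ *
      ((prodOp w1)ᴴ * X * prodOp w1) * reflProd l1) * prodOp w0)) with hΦ
  have hlin : Φ (prodOp A0 - (2 : ℂ) • prodOp (fun i => g.2 i * A0 i)
      - (2 : ℂ) • prodOp (fun i => A0 i * g.2 i)
      + (4 : ℂ) • prodOp (fun i => g.2 i * A0 i * g.2 i)) =
      Φ (prodOp A0) - 2 * Φ (prodOp (fun i => g.2 i * A0 i))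
        - 2 * Φ (prodOp (fun i => A0 i * g.2 i))
        + 4 * Φ (prodOp (fun i => g.2 i * A0 i * g.2 i)) := by
    simp only [hΦ, Matrix.mul_sub, Matrix.sub_mul, Matrix.mul_add, Matrix.add_mul,
      Matrix.mul_smul, Matrix.smul_mul, trace_sub, trace_add, trace_smul, smul_eq_mul]
  show ‖Φ _‖ ≤ _
  rw [hlin]
  have n1 : ‖(2 : ℂ) * Φ (prodOp (fun i => g.2 i * A0 i))‖ ≤ 2 * (9 * rr ^ I.card) := by
    rw [norm_mul]
    have : ‖(2 : ℂ)‖ = 2 := by simp
    rw [this]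
    exact mul_le_mul_of_nonneg_left b1 (by norm_num)
  have n2 : ‖(2 : ℂ) * Φ (prodOp (fun i => A0 i * g.2 i))‖ ≤ 2 * (9 * rr ^ I.card) := by
    rw [norm_mul]
    have : ‖(2 : ℂ)‖ = 2 := by simp
    rw [this]
    exact mul_le_mul_of_nonneg_left b2 (by norm_num)
  have n3 : ‖(4 : ℂ) * Φ (prodOp (fun i => g.2 i * A0 i * g.2 i))‖ ≤ 4 * (9 * rr ^ I.card) := by
    rw [norm_mul]
    have : ‖(4 : ℂ)‖ = 4 := by simp
    rw [this]
    exact mul_le_mul_of_nonneg_left b3 (by norm_num)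
  have n0 : ‖Φ (prodOp A0)‖ ≤ 9 * rr ^ I.card := b0
  calc _ ≤ ‖Φ (prodOp A0) - 2 * Φ (prodOp (fun i => g.2 i * A0 i))
        - 2 * Φ (prodOp (fun i => A0 i * g.2 i))‖
        + ‖4 * Φ (prodOp (fun i => g.2 i * A0 i * g.2 i))‖ := norm_add_le _ _
    _ ≤ ‖Φ (prodOp A0) - 2 * Φ (prodOp (fun i => g.2 i * A0 i))‖
        + ‖2 * Φ (prodOp (fun i => A0 i * g.2 i))‖
        + ‖4 * Φ (prodOp (fun i => g.2 i * A0 i * g.2 i))‖ := by
      gcongr
      exact norm_sub_le _ _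
    _ ≤ ‖Φ (prodOp A0)‖ + ‖2 * Φ (prodOp (fun i => g.2 i * A0 i))‖
        + ‖2 * Φ (prodOp (fun i => A0 i * g.2 i))‖
        + ‖4 * Φ (prodOp (fun i => g.2 i * A0 i * g.2 i))‖ := by
      gcongr
      exact norm_sub_le _ _
    _ ≤ 81 * rr ^ I.card := by linarith

end Vale.Agent.P368
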