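import Mathlib

/-!
# P368: circuits of one-qubit gates and generalized Toffoli gates (statement-level definitions)
-/

namespace Vale.Agent.P368

open Matrix

/-- Operators on a register of qubits indexed by `ι`: matrices over the computational basis
`ι → Bool`. -/
abbrev Op (ι : Type) : Type := Matrix (ι → Bool) (ι → Bool) ℂ

section

variable {ι : Type} [Fintype ι] [DecidableEq ι]

/-- The one-qubit operator `U` applied to qubit `i` (identity on all other qubits). -/
def oneQubit (i : ι) (U : Matrix Bool Bool ℂ) : Op ι :=
  fun z z' => if ∀ k, k ≠ i → z k = z' k then U (z i) (z' i) else 0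

/-- The generalized Toffoli gate with control set `C` and target `b`: the basis state `z'` is sent
to `z'` with bit `b` replaced by `z' b ⊕ (product of the control bits)`. -/
def toffoli (C : Finset ι) (b : ι) : Op ι :=
  fun z z' =>
    if z = Function.update z' b (xor (z' b) (decide (∀ c ∈ C, z' c = true))) then 1 else 0

/-- Gates: arbitrary one-qubit gates and generalized Toffoli gates. -/
inductive Gate (ι : Type) : Type
  | one (i : ι) (U : Matrix Bool Bool ℂ) : Gate ι
  | tof (C : Finset ι) (b : ι) : Gate ι

/-- the set of qubits a gate acts on -/
def Gate.supp : Gate ι → Finset ι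
  | Gate.one i _ => {i}
  | Gate.tof C b => insert b C

/-- one-qubit gates are unitary; a Toffoli gate has at least one control and its target is not a
control -/
def Gate.Valid : Gate ι → Prop
  | Gate.one _ U => U ∈ Matrix.unitaryGroup Bool ℂ
  | Gate.tof C b => C.Nonempty ∧ b ∉ C

/-- the operator of a gate -/
def Gate.op : Gate ι → Op ι
  | Gate.one i U => oneQubit i U
  | Gate.tof C b => toffoli C b

/-- is the gate a multiqubit gate? -/
def Gate.multi : Gate ι → Bool
  | Gate.one _ _ => false
  | Gate.tof _ _ => true

/-- A layer is a list of valid gates with pairwise disjoint supports. -/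
def LayerValid (L : List (Gate ι)) : Prop :=
  (∀ g ∈ L, g.Valid) ∧ L.Pairwise (fun g h => Disjoint g.supp h.supp)

/-- the operator of a layer -/
def layerOp (L : List (Gate ι)) : Op ι := (L.map Gate.op).prod

/-- The operator of a circuit (a list of layers; the head of the list is applied first). -/
def circuitOp : List (List (Gate ι)) → Op ι
  | [] => 1
  | L :: c => circuitOp c * layerOp L

/-- entangling depth: the number of layers containing a multiqubit gate -/
def entDepth (c : List (List (Gate ι))) : ℕ := (c.filter (fun L => L.any Gate.multi)).length

end

section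

variable {n a : ℕ}

/-- the initial basis state: input `x` on the first `n` qubits, zeros on the `a` ancillas -/
def initState (x : Fin n → Bool) : Fin n ⊕ Fin a → Bool := Sum.elim x (fun _ => false)

/-- the parity of `x` -/
def parity (x : Fin n → Bool) : Bool :=
  decide (Odd (Finset.univ.filter (fun i => x i = true)).card)

/-- probability that measuring qubit `q` of the final state on input `x` gives the answer `β` -/
noncomputable def prob (c : List (List (Gate (Fin n ⊕ Fin a)))) (x : Fin n → Bool)
    (q : Fin n ⊕ Fin a) (β : Bool) : ℝ :=
  ∑ z : Fin n ⊕ Fin a → Bool, if z q = β then ‖circuitOp c z (initState x)‖ ^ 2 else 0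

/-- parity correlation: average over uniform `x` of `Pr[correct] - Pr[wrong]` -/
noncomputable def correlation (c : List (List (Gate (Fin n ⊕ Fin a)))) (q : Fin n ⊕ Fin a) : ℝ :=
  (1 / 2 ^ n : ℝ) * ∑ x : Fin n → Bool, (prob c x q (parity x) - prob c x q (!(parity x)))

end

end Vale.Agent.P368
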