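import Vale.Agent.P368.Site

/-!
# P368: the parity correlation as a trace
-/

namespace Vale.Agent.P368

open Matrix

/-- site matrices of the signed average of the initial states: `Z/2` on the inputs, `|0><0|` on the
ancillas -/
noncomputable def rho0 (n a : ℕ) : Fin n ⊕ Fin a → M2 :=
  Sum.elim (fun _ => (1 / 2 : ℂ) • Zm) (fun _ => Eb false)

private theorem proj_apply {ι : Type} [Fintype ι] [DecidableEq ι] (q : ι) (β : Bool)
    (z z' : ι → Bool) :
    prodOp (Function.update (fun _ => (1 : M2)) q (Eb β)) z z' =
      if z = z' ∧ z q = β then 1 else 0 := by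
  unfold prodOp
  split_ifs with h
  · obtain ⟨rfl, hq⟩ := h
    apply Finset.prod_eq_one
    intro i _
    by_cases hi : i = q
    · subst hi
      simp [Eb, hq]
    · simp [Function.update_of_ne hi]
  · by_cases hzz : z = z'
    · subst hzz
      have hq : z q ≠ β := fun hq => h ⟨rfl, hq⟩
      apply Finset.prod_eq_zero (Finset.mem_univ q)
      simp [Eb, hq]
    · obtain ⟨i, hi⟩ := Function.ne_iff.mp hzz
      apply Finset.prod_eq_zero (Finset.mem_univ i)
      by_cases hiq : i = q
      · subst hiq
        simp only [Function.update_self, Eb]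
        rw [if_neg]
        rintro ⟨h1, h2⟩
        exact hi (h1.trans h2.symm)
      · simp [Function.update_of_ne hiq, Matrix.one_apply_ne hi]

private theorem conj_diag {ι : Type} [Fintype ι] [DecidableEq ι] (U : Op ι) (q : ι) (β : Bool)
    (x0 : ι → Bool) :
    (Uᴴ * prodOp (Function.update (fun _ => (1 : M2)) q (Eb β)) * U) x0 x0 =
      ((∑ z : ι → Bool, if z q = β then ‖U z x0‖ ^ 2 else 0 : ℝ) : ℂ) := by
  rw [Matrix.mul_apply]
  push_cast
  apply Finset.sum_congr rfl
  intro z _
  rw [Matrix.mul_apply]
  simp only [proj_apply]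
  rw [Finset.sum_eq_single z]
  · by_cases hq : z q = β
    · simp only [hq, and_self, if_true, mul_one, Matrix.conjTranspose_apply]
      have e := Complex.conj_mul' (U z x0)
      push_cast
      exact e
    · simp [hq]
  · intro b _ hb
    simp [hb]
  · intro h
    exact absurd (Finset.mem_univ z) h

private theorem rho0_apply (n a : ℕ) (z z' : Fin n ⊕ Fin a → Bool) :
    prodOp (rho0 n a) z z' = if z = z' then
      (∏ i : Fin n, ((1 / 2 : ℂ) * (if z (Sum.inl i) = true then -1 else 1))) *
        (∏ j : Fin a, if z (Sum.inr j) = false then (1 : ℂ) else 0) else 0 := by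
  unfold prodOp
  split_ifs with h
  · subst h
    rw [Fintype.prod_sum_type]
    simp [rho0, Zm, Eb]
  · obtain ⟨i, hi⟩ := Function.ne_iff.mp h
    apply Finset.prod_eq_zero (Finset.mem_univ i)
    rcases i with i | j
    · simp [rho0, Zm, hi]
    · simp only [rho0, Sum.elim_inr, Eb]
      rw [if_neg]
      rintro ⟨h1, h2⟩
      exact hi (h1.trans h2.symm)

private theorem sign_eq {n : ℕ} (x : Fin n → Bool) :
    (∏ i : Fin n, ((1 / 2 : ℂ) * (if x i = true then -1 else 1))) =
      (1 / 2 ^ n : ℂ) * (if parity x = true then -1 else 1) := by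
  rw [Finset.prod_mul_distrib, Finset.prod_const, Finset.prod_ite, Finset.prod_const,
    Finset.prod_const_one, mul_one]
  congr 1
  · simp
  · unfold parity
    by_cases h : Odd (Finset.univ.filter (fun i => x i = true)).card
    · simp [h, h.neg_one_pow]
    · have h' := Nat.not_odd_iff_even.mp h
      simp [h, h'.neg_one_pow]

private theorem trace_rho0_mul (n a : ℕ) (M : Op (Fin n ⊕ Fin a)) :
    trace (prodOp (rho0 n a) * M) =
      ∑ x : Fin n → Bool, (1 / 2 ^ n : ℂ) * (if parity x = true then -1 else 1) *
        M (initState x) (initState x) := by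
  have h1 : trace (prodOp (rho0 n a) * M) =
      ∑ z : Fin n ⊕ Fin a → Bool, prodOp (rho0 n a) z z * M z z := by
    unfold Matrix.trace
    apply Finset.sum_congr rfl
    intro z _
    rw [Matrix.diag_apply, Matrix.mul_apply]
    rw [Finset.sum_eq_single z]
    · intro b _ hb
      rw [rho0_apply, if_neg (Ne.symm hb), zero_mul]
    · intro h
      exact absurd (Finset.mem_univ z) h
  rw [h1, ← (Equiv.sumArrowEquivProdArrow (Fin n) (Fin a) Bool).symm.sum_comp,
    Fintype.sum_prod_type]
  apply Finset.sum_congr rfl
  intro x _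
  rw [Finset.sum_eq_single (fun _ => false)]
  · have e : (Equiv.sumArrowEquivProdArrow (Fin n) (Fin a) Bool).symm (x, fun _ => false) =
        initState x := rfl
    rw [e, rho0_apply, if_pos rfl]
    have e2 : (∏ j : Fin a, if (initState x : Fin n ⊕ Fin a → Bool) (Sum.inr j) = false
        then (1 : ℂ) else 0) = 1 := by
      apply Finset.prod_eq_one
      intro j _
      simp [initState]
    rw [e2, mul_one]
    have e3 : (∏ i : Fin n, ((1 / 2 : ℂ) *
        (if (initState x : Fin n ⊕ Fin a → Bool) (Sum.inl i) = true then -1 else 1))) =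
        ∏ i : Fin n, ((1 / 2 : ℂ) * (if x i = true then -1 else 1)) := rfl
    rw [e3, sign_eq]
  · intro y _ hy
    obtain ⟨j, hj⟩ := Function.ne_iff.mp hy
    rw [rho0_apply, if_pos rfl]
    have : (∏ j : Fin a, if ((Equiv.sumArrowEquivProdArrow (Fin n) (Fin a) Bool).symm (x, y))
        (Sum.inr j) = false then (1 : ℂ) else 0) = 0 := by
      apply Finset.prod_eq_zero (Finset.mem_univ j)
      have e : ((Equiv.sumArrowEquivProdArrow (Fin n) (Fin a) Bool).symm (x, y)) (Sum.inr j) = y j :=
        rfl
      rw [e, if_neg hj]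
    rw [this, mul_zero, zero_mul]
  · intro h
    exact absurd (Finset.mem_univ _) h

theorem correlation_eq {n a : ℕ} (c : List (List (Gate (Fin n ⊕ Fin a)))) (q : Fin n ⊕ Fin a) :
    ((correlation c q : ℝ) : ℂ) =
      trace (prodOp (rho0 n a) * ((circuitOp c)ᴴ *
        prodOp (Function.update (fun _ => (1 : M2)) q (Eb false)) * circuitOp c)) -
      trace (prodOp (rho0 n a) * ((circuitOp c)ᴴ *
        prodOp (Function.update (fun _ => (1 : M2)) q (Eb true)) * circuitOp c)) := by
  rw [trace_rho0_mul, trace_rho0_mul, ← Finset.sum_sub_distrib]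
  unfold correlation
  push_cast
  rw [Finset.mul_sum]
  apply Finset.sum_congr rfl
  intro x _
  rw [conj_diag, conj_diag]
  have hp : ∀ β : Bool, (∑ z : Fin n ⊕ Fin a → Bool,
      if z q = β then ‖circuitOp c z (initState x)‖ ^ 2 else 0 : ℝ) = prob c x q β := fun _ => rfl
  rw [hp, hp]
  cases parity x with
  | true => simp; ring
  | false => simp; ring

end Vale.Agent.P368
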