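import Vale.Agent.P368.Trace

/-!
# P368: normal form of circuits of entangling depth at most two
-/

namespace Vale.Agent.P368

open Matrix

variable {ι : Type} [Fintype ι] [DecidableEq ι]

private theorem update_unitary (i : ι) (U : M2) (hU : U ∈ unitaryGroup Bool ℂ) (k : ι) :
    Function.update (fun _ => (1 : M2)) i U k ∈ unitaryGroup Bool ℂ := by
  by_cases h : k = i
  · subst h
    simpa using hU
  · rw [Function.update_of_ne h]
    exact one_mem _

private theorem tofP_ok (C : Finset ι) (b : ι) : RG.Ok ((insert b C, tofP C b) : RG ι) := by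
  constructor
  · intro i hi
    change IsRP (tofP C b i)
    unfold tofP
    by_cases hC : i ∈ C
    · rw [if_pos hC]
      exact isRP_E11
    · rw [if_neg hC]
      have hib : i = b := by
        rcases Finset.mem_insert.mp hi with h | h
        · exact h
        · exact absurd h hC
      rw [if_pos hib]
      exact isRP_Emm
  · intro i hi
    change tofP C b i = 1
    have hi' : i ∉ insert b C := hi
    rw [Finset.mem_insert, not_or] at hi'
    unfold tofP
    rw [if_neg hi'.2, if_neg hi'.1]

private theorem layer_normal_aux (L : List (Gate ι)) (hL : LayerValid L) :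
    ∃ (w : ι → M2) (l : List (RG ι)), (∀ i, w i ∈ unitaryGroup Bool ℂ) ∧ GoodList l ∧
      (L.any Gate.multi = false → l = []) ∧ layerOp L = prodOp w * reflProd l ∧
      (∀ j, (∀ g ∈ L, j ∉ g.supp) → w j = 1) ∧
      (∀ r ∈ l, ∀ j ∈ r.1, ∃ g ∈ L, j ∈ g.supp) := by
  induction L with
  | nil =>
    refine ⟨fun _ => 1, [], fun _ => one_mem _, ⟨by simp, List.Pairwise.nil⟩, fun _ => rfl, ?_,
      fun _ _ => rfl, by simp⟩
    simp [layerOp, reflProd, prodOp_one]
  | cons g L ih =>
    have hL' : LayerValid L :=
      ⟨fun h hh => hL.1 h (List.mem_cons_of_mem _ hh), (List.pairwise_cons.mp hL.2).2⟩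
    have hdisj : ∀ h ∈ L, Disjoint g.supp h.supp := (List.pairwise_cons.mp hL.2).1
    have hgv : g.Valid := hL.1 g List.mem_cons_self
    obtain ⟨w, l, hw, hl, hany, hop, hw1, hsupp⟩ := ih hL'
    have hcons : layerOp (g :: L) = g.op * layerOp L := by
      simp [layerOp]
    cases g with
    | one i U =>
      have hU : U ∈ unitaryGroup Bool ℂ := hgv
      refine ⟨fun k => Function.update (fun _ => (1 : M2)) i U k * w k, l, ?_, hl, ?_, ?_, ?_, ?_⟩
      · intro k
        exact mul_mem (update_unitary i U hU k) (hw k)
      · intro h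
        apply hany
        simpa [Gate.multi] using h
      · rw [hcons, hop]
        change oneQubit i U * (prodOp w * reflProd l) = _
        rw [oneQubit_eq, ← mul_assoc, prodOp_mul]
      · intro j hj
        have h1 : j ≠ i := by
          intro h
          have := hj (Gate.one i U) List.mem_cons_self
          apply this
          simp [Gate.supp, h]
        have h2 : w j = 1 := hw1 j (fun h hh => hj h (List.mem_cons_of_mem _ hh))
        change Function.update (fun _ => (1 : M2)) i U j * w j = 1
        rw [Function.update_of_ne h1, h2, one_mul]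
      · intro r hr j hjr
        obtain ⟨h, hh, hj⟩ := hsupp r hr j hjr
        exact ⟨h, List.mem_cons_of_mem _ hh, hj⟩
    | tof C b =>
      have hb : b ∉ C := hgv.2
      have hcomm : ∀ i, tofP C b i = 1 ∨ w i = 1 := by
        intro i
        by_cases hi : i ∈ insert b C
        · right
          apply hw1
          intro h hh hih
          exact (Finset.disjoint_left.mp (hdisj h hh)) hi hih
        · left
          exact (tofP_ok C b).2 i hi
      refine ⟨w, ((insert b C, tofP C b) : RG ι) :: l, hw, ?_, ?_, ?_, ?_, ?_⟩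
      · refine ⟨?_, ?_⟩
        · intro r hr
          rcases List.mem_cons.mp hr with h | h
          · rw [h]
            exact tofP_ok C b
          · exact hl.1 r h
        · rw [List.pairwise_cons]
          refine ⟨?_, hl.2⟩
          intro r hr
          rw [Finset.disjoint_left]
          intro j hj hjr
          obtain ⟨h, hh, hjh⟩ := hsupp r hr j hjr
          exact (Finset.disjoint_left.mp (hdisj h hh)) hj hjh
      · intro h
        simp [Gate.multi] at h
      · rw [hcons, hop]
        change toffoli C b * (prodOp w * reflProd l) = _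
        rw [toffoli_eq C b hb]
        change refl (tofP C b) * (prodOp w * reflProd l) = _
        rw [← mul_assoc, refl_commute_prodOp _ _ hcomm, mul_assoc]
        simp [reflProd]
      · intro j hj
        exact hw1 j (fun h hh => hj h (List.mem_cons_of_mem _ hh))
      · intro r hr j hjr
        rcases List.mem_cons.mp hr with h | h
        · rw [h] at hjr
          exact ⟨Gate.tof C b, List.mem_cons_self, hjr⟩
        · obtain ⟨h', hh, hj⟩ := hsupp r h j hjr
          exact ⟨h', List.mem_cons_of_mem _ hh, hj⟩

/-- a valid layer is a product of one-qubit unitaries times a layer of disjoint reflections, and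
the layer of reflections is empty if the layer has no multiqubit gate -/
theorem layer_normal (L : List (Gate ι)) (hL : LayerValid L) :
    ∃ (w : ι → M2) (l : List (RG ι)), (∀ i, w i ∈ unitaryGroup Bool ℂ) ∧ GoodList l ∧
      (L.any Gate.multi = false → l = []) ∧ layerOp L = prodOp w * reflProd l := by
  obtain ⟨w, l, h1, h2, h3, h4, _, _⟩ := layer_normal_aux L hL
  exact ⟨w, l, h1, h2, h3, h4⟩

/-- operators in normal form with `k` layers of reflections -/
private def NF : ℕ → Op ι → Prop
  | 0, U => ∃ w : ι → M2, (∀ i, w i ∈ unitaryGroup Bool ℂ) ∧ U = prodOp w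
  | k + 1, U => ∃ (U' : Op ι) (l : List (RG ι)) (w : ι → M2), NF k U' ∧ GoodList l ∧
      (∀ i, w i ∈ unitaryGroup Bool ℂ) ∧ U = U' * reflProd l * prodOp w

private theorem NF.mul_prodOp {k : ℕ} {U : Op ι} (h : NF k U) (w' : ι → M2)
    (hw' : ∀ i, w' i ∈ unitaryGroup Bool ℂ) : NF k (U * prodOp w') := by
  cases k with
  | zero =>
    obtain ⟨w, hw, rfl⟩ := h
    exact ⟨fun i => w i * w' i, fun i => mul_mem (hw i) (hw' i), prodOp_mul _ _⟩
  | succ k =>
    obtain ⟨U', l, w, hU', hl, hw, rfl⟩ := h
    refine ⟨U', l, fun i => w i * w' i, hU', hl, fun i => mul_mem (hw i) (hw' i), ?_⟩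
    rw [mul_assoc, prodOp_mul]

private theorem goodList_nil : GoodList ([] : List (RG ι)) := ⟨by simp, List.Pairwise.nil⟩

private theorem NF.succ {k : ℕ} {U : Op ι} (h : NF k U) : NF (k + 1) U := by
  refine ⟨U, [], fun _ => 1, h, goodList_nil, fun _ => one_mem _, ?_⟩
  simp [reflProd, prodOp_one]

private theorem NF.mono {k m : ℕ} {U : Op ι} (h : NF k U) (hkm : k ≤ m) : NF m U := by
  induction hkm with
  | refl => exact h
  | step _ ih => exact ih.succ

private theorem NF_circuit (c : List (List (Gate ι))) (hc : ∀ L ∈ c, LayerValid L) :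
    NF (entDepth c) (circuitOp c) := by
  induction c with
  | nil =>
    exact ⟨fun _ => 1, fun _ => one_mem _, by simp [circuitOp, prodOp_one]⟩
  | cons L c ih =>
    have ih' := ih (fun L' hL' => hc L' (List.mem_cons_of_mem _ hL'))
    obtain ⟨w, l, hw, hl, hany, hop⟩ := layer_normal L (hc L List.mem_cons_self)
    have hop' : circuitOp (L :: c) = circuitOp c * prodOp w * reflProd l := by
      change circuitOp c * layerOp L = _
      rw [hop, mul_assoc]
    have h1 := ih'.mul_prodOp w hw
    by_cases hm : L.any Gate.multi = true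
    · have hd : entDepth (L :: c) = entDepth c + 1 := by
        simp [entDepth, hm]
      rw [hd, hop']
      refine ⟨circuitOp c * prodOp w, l, fun _ => 1, h1, hl, fun _ => one_mem _, ?_⟩
      simp [prodOp_one]
    · have hm' : L.any Gate.multi = false := by
        simpa using hm
      have hd : entDepth (L :: c) = entDepth c := by
        simp [entDepth, hm']
      rw [hd, hop', hany hm']
      simpa [reflProd] using h1

/-- normal form of a circuit of entangling depth at most two -/
theorem normal_form (c : List (List (Gate ι))) (hc : ∀ L ∈ c, LayerValid L)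
    (hd : entDepth c ≤ 2) :
    ∃ (w0 w1 w2 : ι → M2) (l1 l2 : List (RG ι)),
      (∀ i, w0 i ∈ unitaryGroup Bool ℂ) ∧ (∀ i, w1 i ∈ unitaryGroup Bool ℂ) ∧
      (∀ i, w2 i ∈ unitaryGroup Bool ℂ) ∧ GoodList l1 ∧ GoodList l2 ∧
      circuitOp c = prodOp w2 * reflProd l2 * prodOp w1 * reflProd l1 * prodOp w0 := by
  have h : NF 2 (circuitOp c) := (NF_circuit c hc).mono hd
  obtain ⟨U1, l1, w0, hU1, hl1, hw0, e1⟩ := h
  obtain ⟨U2, l2, w1, hU2, hl2, hw1, e2⟩ := hU1
  obtain ⟨w2, hw2, e3⟩ := hU2
  refine ⟨w0, w1, w2, l1, l2, hw0, hw1, hw2, hl1, hl2, ?_⟩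
  rw [e1, e2, e3]

end Vale.Agent.P368
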