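import Vale.Agent.P368.Core
import Vale.Agent.P368.Normal
import Vale.Agent.P368.Link

/-!
# P368: parity correlation at entangling depth two is at most `162 * 2 ^ (-n/2)`
-/

namespace Vale.Agent.P368

open Matrix

theorem rr_pow_eq (n : ℕ) : rr ^ n = (2 : ℝ) ^ (-(n : ℝ) / 2) := by
  unfold rr
  rw [Real.sqrt_eq_rpow, ← Real.rpow_natCast, ← Real.rpow_mul (by norm_num)]
  rw [one_div, Real.inv_rpow (by norm_num), ← Real.rpow_neg (by norm_num)]
  congr 1
  ring

theorem rhoCls_rho0 (n a : ℕ) :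
    RhoCls (Finset.univ.map (Function.Embedding.inl : Fin n ↪ Fin n ⊕ Fin a)) (rho0 n a) := by
  constructor
  · intro i hi
    simp only [Finset.mem_map, Finset.mem_univ, true_and] at hi
    obtain ⟨j, rfl⟩ := hi
    exact isInp_Zm
  · intro i hi
    rcases i with j | j
    · exact absurd (by simp) hi
    · exact isRP_Eb false

theorem depth_two_bound (n a : ℕ) (c : List (List (Gate (Fin n ⊕ Fin a)))) (q : Fin n ⊕ Fin a)
    (hc : ∀ L ∈ c, LayerValid L) (hd : entDepth c ≤ 2) :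
    |correlation c q| ≤ 162 * (2 : ℝ) ^ (-(n : ℝ) / 2) := by
  obtain ⟨w0, w1, w2, l1, l2, h0, h1, h2, hl1, hl2, hU⟩ := normal_form c hc hd
  have key := correlation_eq c q
  rw [hU] at key
  have b0 := core_bound w0 w1 w2 l1 l2 h0 h1 h2 hl1 hl2 _ _ (rhoCls_rho0 n a) q _ (isRP_Eb false)
  have b1 := core_bound w0 w1 w2 l1 l2 h0 h1 h2 hl1 hl2 _ _ (rhoCls_rho0 n a) q _ (isRP_Eb true)
  have hcard : (Finset.univ.map (Function.Embedding.inl : Fin n ↪ Fin n ⊕ Fin a)).card = n := by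
    simp
  rw [hcard] at b0 b1
  have : ‖((correlation c q : ℝ) : ℂ)‖ ≤ 81 * rr ^ n + 81 * rr ^ n := by
    rw [key]
    exact (norm_sub_le _ _).trans (add_le_add b0 b1)
  rw [Complex.norm_real, Real.norm_eq_abs, rr_pow_eq] at this
  linarith

end Vale.Agent.P368
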