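import Vale.Agent.P368.Defs

/-!
# P368: product operators
-/

namespace Vale.Agent.P368

open Matrix

/-- one-qubit operators -/
abbrev M2 : Type := Matrix Bool Bool ℂ

variable {ι : Type} [Fintype ι] [DecidableEq ι]

/-- the tensor product of the one-qubit operators `A i` -/
def prodOp (A : ι → M2) : Op ι := fun z z' => ∏ i, A i (z i) (z' i)

theorem prodOp_mul (A B : ι → M2) : prodOp A * prodOp B = prodOp (fun i => A i * B i) := by
  ext z z'
  simp only [Matrix.mul_apply, prodOp]
  rw [Finset.prod_univ_sum, Fintype.piFinset_univ]
  refine Finset.sum_congr rfl fun w _ => ?_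
  rw [Finset.prod_mul_distrib]

theorem prodOp_one : prodOp (fun _ : ι => (1 : M2)) = 1 := by
  ext z z'
  simp only [prodOp, Matrix.one_apply]
  rw [Finset.prod_ite_zero]
  by_cases h : z = z'
  · subst h
    simp
  · have h' : ¬ ∀ i ∈ (Finset.univ : Finset ι), z i = z' i := by
      intro hh
      exact h (funext fun i => hh i (Finset.mem_univ i))
    rw [if_neg h', if_neg h]

theorem trace_prodOp (A : ι → M2) : trace (prodOp A) = ∏ i, trace (A i) := by
  simp only [Matrix.trace, Matrix.diag_apply, prodOp]
  rw [Finset.prod_univ_sum, Fintype.piFinset_univ]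

theorem prodOp_conjTranspose (A : ι → M2) : (prodOp A)ᴴ = prodOp (fun i => (A i)ᴴ) := by
  ext z z'
  simp only [prodOp, Matrix.conjTranspose_apply, star_prod]

theorem prodOp_smul (c : ι → ℂ) (A : ι → M2) :
    prodOp (fun i => c i • A i) = (∏ i, c i) • prodOp A := by
  ext z z'
  simp only [prodOp, Matrix.smul_apply, smul_eq_mul, Finset.prod_mul_distrib]

/-- a product of rank one operators is a rank one operator -/
theorem prodOp_vecMulVec (u v : ι → Bool → ℂ) :
    prodOp (fun i => vecMulVec (u i) (v i)) =
      vecMulVec (fun z => ∏ i, u i (z i)) (fun z => ∏ i, v i (z i)) := by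
  ext z z'
  simp only [prodOp, Matrix.vecMulVec_apply, Finset.prod_mul_distrib]

/-- a one-qubit gate is a product operator -/
theorem oneQubit_eq (i : ι) (U : M2) :
    oneQubit i U = prodOp (Function.update (fun _ => (1 : M2)) i U) := by
  ext z z'
  unfold prodOp oneQubit
  rw [← Finset.mul_prod_erase Finset.univ _ (Finset.mem_univ i)]
  have h1 : ∀ k ∈ Finset.univ.erase i,
      (Function.update (fun _ => (1 : M2)) i U k) (z k) (z' k) =
        if z k = z' k then 1 else 0 := by
    intro k hk
    have hki : k ≠ i := Finset.ne_of_mem_erase hk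
    rw [Function.update_of_ne hki, Matrix.one_apply]
  rw [Finset.prod_congr rfl h1, Finset.prod_ite_zero, Function.update_self]
  by_cases h : ∀ k, k ≠ i → z k = z' k
  · have h' : ∀ k ∈ Finset.univ.erase i, z k = z' k :=
      fun k hk => h k (Finset.ne_of_mem_erase hk)
    rw [if_pos h, if_pos h']
    simp
  · have h' : ¬ ∀ k ∈ Finset.univ.erase i, z k = z' k := by
      intro hh
      exact h fun k hk => hh k (Finset.mem_erase.2 ⟨hk, Finset.mem_univ k⟩)
    rw [if_neg h, if_neg h']
    simp

/-- `|1><1|` -/
def E11 : M2 := fun x y => if x = true ∧ y = true then 1 else 0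

/-- `|-><-|` -/
noncomputable def Emm : M2 := fun x y => if x = y then 1 / 2 else -(1 / 2)

/-- site matrices of the product projector attached to a generalized Toffoli gate -/
noncomputable def tofP (C : Finset ι) (b : ι) : ι → M2 :=
  fun i => if i ∈ C then E11 else if i = b then Emm else 1

/-- a generalized Toffoli gate is the reflection about a product projector -/
theorem toffoli_eq (C : Finset ι) (b : ι) (hb : b ∉ C) :
    toffoli C b = 1 - (2 : ℂ) • prodOp (tofP C b) := by
  ext z z'
  have hP : prodOp (tofP C b) z z' =
      if (∀ i, i ≠ b → ((i ∈ C → z i = true ∧ z' i = true) ∧ (i ∉ C → z i = z' i)))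
      then Emm (z b) (z' b) else 0 := by
    unfold prodOp
    rw [← Finset.mul_prod_erase Finset.univ _ (Finset.mem_univ b)]
    have h1 : ∀ i ∈ Finset.univ.erase b, tofP C b i (z i) (z' i) =
        if ((i ∈ C → z i = true ∧ z' i = true) ∧ (i ∉ C → z i = z' i)) then 1 else 0 := by
      intro i hi
      have hib : i ≠ b := Finset.ne_of_mem_erase hi
      unfold tofP
      by_cases hiC : i ∈ C
      · simp [hiC, E11]
      · simp [hiC, hib, Matrix.one_apply]
    rw [Finset.prod_congr rfl h1, Finset.prod_ite_zero]
    have h2 : tofP C b b = Emm := by simp [tofP, hb]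
    rw [h2]
    by_cases h : ∀ i, i ≠ b → ((i ∈ C → z i = true ∧ z' i = true) ∧ (i ∉ C → z i = z' i))
    · have h' : ∀ i ∈ Finset.univ.erase b,
          ((i ∈ C → z i = true ∧ z' i = true) ∧ (i ∉ C → z i = z' i)) :=
        fun k hk => h k (Finset.ne_of_mem_erase hk)
      rw [if_pos h, if_pos h']
      simp
    · have h' : ¬ ∀ i ∈ Finset.univ.erase b,
          ((i ∈ C → z i = true ∧ z' i = true) ∧ (i ∉ C → z i = z' i)) := by
        intro hh
        exact h fun k hk => hh k (Finset.mem_erase.2 ⟨hk, Finset.mem_univ k⟩)
      rw [if_neg h, if_neg h']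
      simp
  rw [Matrix.sub_apply, Matrix.smul_apply, hP, Matrix.one_apply, smul_eq_mul]
  unfold toffoli
  by_cases hC : ∀ c ∈ C, z' c = true
  · -- all controls are set
    have hx : xor (z' b) (decide (∀ c ∈ C, z' c = true)) = !(z' b) := by
      rw [decide_eq_true hC, Bool.xor_true]
    rw [hx]
    by_cases hz : z = Function.update z' b (!(z' b))
    · have hzb : z b = !(z' b) := by rw [hz]; simp
      have hzi : ∀ i, i ≠ b → z i = z' i := by
        intro i hi
        rw [hz, Function.update_of_ne hi]
      have hne : z ≠ z' := by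
        intro h
        rw [h] at hzb
        cases hh : z' b <;> simp [hh] at hzb
      have hcond : ∀ i, i ≠ b → ((i ∈ C → z i = true ∧ z' i = true) ∧ (i ∉ C → z i = z' i)) := by
        intro i hi
        refine ⟨fun hiC => ⟨?_, hC i hiC⟩, fun _ => hzi i hi⟩
        rw [hzi i hi]
        exact hC i hiC
      rw [if_pos hz, if_neg hne, if_pos hcond]
      have : z b ≠ z' b := by
        rw [hzb]
        cases z' b <;> simp
      simp only [Emm, if_neg this]
      norm_num
    · rw [if_neg hz]
      by_cases hzz : z = z'
      · subst hzz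
        have hcond : ∀ i, i ≠ b → ((i ∈ C → z i = true ∧ z i = true) ∧ (i ∉ C → z i = z i)) := by
          intro i hi
          exact ⟨fun hiC => ⟨hC i hiC, hC i hiC⟩, fun _ => rfl⟩
        rw [if_pos rfl, if_pos hcond]
        simp only [Emm, if_true]
        norm_num
      · have hcond : ¬ ∀ i, i ≠ b →
            ((i ∈ C → z i = true ∧ z' i = true) ∧ (i ∉ C → z i = z' i)) := by
          intro hh
          have hzi : ∀ i, i ≠ b → z i = z' i := by
            intro i hi
            by_cases hiC : i ∈ C
            · rw [((hh i hi).1 hiC).1, ((hh i hi).1 hiC).2]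
            · exact (hh i hi).2 hiC
          by_cases hbb : z b = z' b
          · apply hzz
            funext i
            by_cases hi : i = b
            · rw [hi]; exact hbb
            · exact hzi i hi
          · apply hz
            funext i
            by_cases hi : i = b
            · rw [hi, Function.update_self]
              cases h1 : z b <;> cases h2 : z' b <;> simp_all
            · rw [Function.update_of_ne hi]
              exact hzi i hi
        rw [if_neg hzz, if_neg hcond]
        simp
  · have hx : xor (z' b) (decide (∀ c ∈ C, z' c = true)) = z' b := by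
      rw [decide_eq_false hC, Bool.xor_false]
    rw [hx, Function.update_eq_self]
    have hcond : ¬ ∀ i, i ≠ b →
        ((i ∈ C → z i = true ∧ z' i = true) ∧ (i ∉ C → z i = z' i)) := by
      intro hh
      apply hC
      intro c hc
      have hcb : c ≠ b := fun h => hb (h ▸ hc)
      exact ((hh c hcb).1 hc).2
    rw [if_neg hcond]
    simp

end Vale.Agent.P368
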