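import Vale.Agent.P368.ProdOp

/-!
# P368: facts on one-qubit operators
-/

namespace Vale.Agent.P368

open Matrix

/-- squared norm of a one-qubit vector -/
noncomputable def nsq (u : Bool → ℂ) : ℝ := ∑ b, ‖u b‖ ^ 2

/-- rank one projector -/
def IsRP (p : M2) : Prop := ∃ φ : Bool → ℂ, nsq φ = 1 ∧ p = vecMulVec φ (star φ)

/-- rank one contraction -/
def IsRC (X : M2) : Prop := ∃ u v : Bool → ℂ, nsq u * nsq v ≤ 1 ∧ X = vecMulVec u (star v)

/-- half of a traceless hermitian unitary: the signed density of an input qubit -/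
def IsInp (ρ : M2) : Prop :=
  ∃ H : M2, H.IsHermitian ∧ H * H = 1 ∧ trace H = 0 ∧ ρ = (1 / 2 : ℂ) • H

private theorem nsq_nonneg (u : Bool → ℂ) : 0 ≤ nsq u := by
  unfold nsq
  positivity

private theorem star_dot_self (u : Bool → ℂ) : star u ⬝ᵥ u = (nsq u : ℂ) := by
  simp only [dotProduct, nsq, Pi.star_apply, Complex.ofReal_sum, Complex.ofReal_pow]
  apply Finset.sum_congr rfl
  intro b _
  rw [Complex.star_def, Complex.conj_mul']

private theorem dot_star_self (u : Bool → ℂ) : u ⬝ᵥ star u = (nsq u : ℂ) := by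
  rw [dotProduct_comm, star_dot_self]

private theorem cs (u v : Bool → ℂ) : ‖star v ⬝ᵥ u‖ ^ 2 ≤ nsq v * nsq u := by
  simp only [dotProduct, nsq, Pi.star_apply, Fintype.sum_bool]
  have h1 : ‖star (v true) * u true + star (v false) * u false‖
      ≤ ‖v true‖ * ‖u true‖ + ‖v false‖ * ‖u false‖ := by
    refine (norm_add_le _ _).trans ?_
    simp [norm_mul]
  have h0 : 0 ≤ ‖star (v true) * u true + star (v false) * u false‖ := norm_nonneg _
  have h2 : ‖star (v true) * u true + star (v false) * u false‖ ^ 2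
      ≤ (‖v true‖ * ‖u true‖ + ‖v false‖ * ‖u false‖) ^ 2 := by
    apply pow_le_pow_left₀ h0 h1
  refine h2.trans ?_
  nlinarith [sq_nonneg (‖v true‖ * ‖u false‖ - ‖v false‖ * ‖u true‖)]

private theorem nsq_smul (c : ℂ) (u : Bool → ℂ) : nsq (c • u) = ‖c‖ ^ 2 * nsq u := by
  simp only [nsq, Pi.smul_apply, smul_eq_mul, norm_mul, Fintype.sum_bool]
  ring

private theorem nsq_mulVec {w : M2} (hw : wᴴ * w = 1) (u : Bool → ℂ) : nsq (w *ᵥ u) = nsq u := by
  have h : ((nsq (w *ᵥ u) : ℝ) : ℂ) = (nsq u : ℂ) := by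
    rw [← star_dot_self, ← star_dot_self, star_mulVec, ← dotProduct_mulVec, mulVec_mulVec, hw,
      one_mulVec]
  exact_mod_cast h

private theorem norm_le_one_of_sq {x : ℝ} (h0 : 0 ≤ x) (h : x ^ 2 ≤ 1) : x ≤ 1 := by
  nlinarith

theorem IsRP.isRC {p : M2} (h : IsRP p) : IsRC p := by
  obtain ⟨φ, h1, rfl⟩ := h
  exact ⟨φ, φ, by rw [h1]; norm_num, rfl⟩

theorem IsRP.isHermitian {p : M2} (h : IsRP p) : p.IsHermitian := by
  obtain ⟨φ, h1, rfl⟩ := h
  unfold Matrix.IsHermitian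
  rw [conjTranspose_vecMulVec, star_star]

theorem IsRP.mul_self {p : M2} (h : IsRP p) : p * p = p := by
  obtain ⟨φ, h1, rfl⟩ := h
  rw [vecMulVec_mul_vecMulVec, star_dot_self, h1]
  simp

theorem IsRP.trace_eq {p : M2} (h : IsRP p) : trace p = 1 := by
  obtain ⟨φ, h1, rfl⟩ := h
  rw [trace_vecMulVec, dot_star_self, h1]
  simp

theorem IsRC.mul {X Y : M2} (hX : IsRC X) (hY : IsRC Y) : IsRC (X * Y) := by
  obtain ⟨u, v, h1, rfl⟩ := hX
  obtain ⟨u', v', h2, rfl⟩ := hY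
  refine ⟨(star v ⬝ᵥ u') • u, v', ?_, ?_⟩
  · rw [nsq_smul]
    have hc := cs u' v
    have a1 := nsq_nonneg u
    have a2 := nsq_nonneg v
    have a3 := nsq_nonneg u'
    have a4 := nsq_nonneg v'
    calc ‖star v ⬝ᵥ u'‖ ^ 2 * nsq u * nsq v'
        ≤ (nsq v * nsq u') * nsq u * nsq v' := by
          apply mul_le_mul_of_nonneg_right _ a4
          exact mul_le_mul_of_nonneg_right hc a1
      _ = (nsq u * nsq v) * (nsq u' * nsq v') := by ring
      _ ≤ 1 * 1 := mul_le_mul h1 h2 (mul_nonneg a3 a4) (by norm_num)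
      _ = 1 := by norm_num
  · rw [vecMulVec_mul_vecMulVec, vecMulVec_smul, smul_vecMulVec]

theorem IsRC.norm_trace_le {X : M2} (hX : IsRC X) : ‖trace X‖ ≤ 1 := by
  obtain ⟨u, v, h1, rfl⟩ := hX
  rw [trace_vecMulVec, dotProduct_comm]
  apply norm_le_one_of_sq (norm_nonneg _)
  have := cs u v
  nlinarith

theorem IsInp.trace_eq {ρ : M2} (h : IsInp ρ) : trace ρ = 0 := by
  obtain ⟨H, h1, h2, h3, rfl⟩ := h
  rw [trace_smul, h3, smul_zero]

theorem IsInp.isHermitian {ρ : M2} (h : IsInp ρ) : ρ.IsHermitian := by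
  obtain ⟨H, h1, h2, h3, rfl⟩ := h
  unfold Matrix.IsHermitian
  rw [conjTranspose_smul, h1.eq]
  congr 1
  simp

theorem IsInp.mul_self {ρ : M2} (h : IsInp ρ) : ρ * ρ = (1 / 4 : ℂ) • (1 : M2) := by
  obtain ⟨H, h1, h2, h3, rfl⟩ := h
  rw [Matrix.smul_mul, Matrix.mul_smul, h2, smul_smul]
  norm_num

theorem IsInp.norm_trace_mul_le {ρ X : M2} (h : IsInp ρ) (hX : IsRC X) :
    ‖trace (ρ * X)‖ ≤ 1 / 2 := by
  obtain ⟨H, h1, h2, h3, rfl⟩ := h
  obtain ⟨u, v, h4, rfl⟩ := hX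
  rw [Matrix.smul_mul, trace_smul, mul_vecMulVec, trace_vecMulVec, dotProduct_comm, norm_smul]
  have hH : Hᴴ * H = 1 := by rw [h1.eq, h2]
  have hc := cs (H *ᵥ u) v
  rw [nsq_mulVec hH] at hc
  have h5 : ‖star v ⬝ᵥ H *ᵥ u‖ ≤ 1 := by
    apply norm_le_one_of_sq (norm_nonneg _)
    nlinarith
  have h6 : ‖(1 / 2 : ℂ)‖ = 1 / 2 := by norm_num
  rw [h6]
  linarith

private theorem conj_vecMulVec (w : M2) (u v : Bool → ℂ) :
    w * vecMulVec u (star v) * wᴴ = vecMulVec (w *ᵥ u) (star (w *ᵥ v)) := by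
  rw [mul_vecMulVec, vecMulVec_mul, star_mulVec]

theorem IsRP.conj {p w : M2} (h : IsRP p) (hw : w ∈ unitaryGroup Bool ℂ) : IsRP (w * p * wᴴ) := by
  obtain ⟨φ, h1, rfl⟩ := h
  have hw' : wᴴ * w = 1 := by
    have := (Matrix.mem_unitaryGroup_iff' (A := w)).mp hw
    simpa [star_eq_conjTranspose] using this
  exact ⟨w *ᵥ φ, by rw [nsq_mulVec hw', h1], conj_vecMulVec w φ φ⟩

theorem IsRC.conj {p w : M2} (h : IsRC p) (hw : w ∈ unitaryGroup Bool ℂ) : IsRC (w * p * wᴴ) := by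
  obtain ⟨u, v, h1, rfl⟩ := h
  have hw' : wᴴ * w = 1 := by
    have := (Matrix.mem_unitaryGroup_iff' (A := w)).mp hw
    simpa [star_eq_conjTranspose] using this
  exact ⟨w *ᵥ u, w *ᵥ v, by rw [nsq_mulVec hw', nsq_mulVec hw']; exact h1, conj_vecMulVec w u v⟩

theorem IsInp.conj {p w : M2} (h : IsInp p) (hw : w ∈ unitaryGroup Bool ℂ) :
    IsInp (w * p * wᴴ) := by
  obtain ⟨H, h1, h2, h3, rfl⟩ := h
  have hw' : wᴴ * w = 1 := by
    have := (Matrix.mem_unitaryGroup_iff' (A := w)).mp hw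
    simpa [star_eq_conjTranspose] using this
  have hw'' : w * wᴴ = 1 := by
    have := (Matrix.mem_unitaryGroup_iff (A := w)).mp hw
    simpa [star_eq_conjTranspose] using this
  refine ⟨w * H * wᴴ, ?_, ?_, ?_, ?_⟩
  · unfold Matrix.IsHermitian
    rw [conjTranspose_mul, conjTranspose_mul, conjTranspose_conjTranspose, h1.eq, Matrix.mul_assoc]
  · calc w * H * wᴴ * (w * H * wᴴ) = w * H * (wᴴ * w) * H * wᴴ := by
          simp only [Matrix.mul_assoc]
      _ = w * (H * H) * wᴴ := by rw [hw', Matrix.mul_one, Matrix.mul_assoc w H H]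
      _ = 1 := by rw [h2, Matrix.mul_one, hw'']
  · rw [trace_mul_comm, ← Matrix.mul_assoc, hw', Matrix.one_mul, h3]
  · rw [Matrix.mul_smul, Matrix.smul_mul]

/-- `|0><0|` and `|1><1|` -/
def Eb (β : Bool) : M2 := fun x y => if x = β ∧ y = β then 1 else 0

/-- Pauli `Z` -/
def Zm : M2 := fun x y => if x = y then (if x = true then -1 else 1) else 0

theorem isRP_Eb (β : Bool) : IsRP (Eb β) := by
  refine ⟨fun x => if x = β then 1 else 0, ?_, ?_⟩
  · cases β <;> simp [nsq]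
  · ext x y
    cases β <;> cases x <;> cases y <;> simp [Eb, vecMulVec_apply]

theorem isRP_E11 : IsRP E11 := by
  have : E11 = Eb true := rfl
  rw [this]
  exact isRP_Eb true

theorem isRP_Emm : IsRP Emm := by
  have hs : ((Real.sqrt 2 : ℝ) : ℂ) * ((Real.sqrt 2 : ℝ) : ℂ) = 2 := by
    rw [← Complex.ofReal_mul, Real.mul_self_sqrt (by norm_num)]
    norm_num
  have hs0 : ((Real.sqrt 2 : ℝ) : ℂ) ≠ 0 := by
    intro h
    rw [h] at hs
    norm_num at hs
  have hr : (Real.sqrt 2) ^ 2 = 2 := Real.sq_sqrt (by norm_num)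
  have hr0 : (0 : ℝ) < Real.sqrt 2 := Real.sqrt_pos.mpr (by norm_num)
  refine ⟨fun x => if x = true then -(1 / ((Real.sqrt 2 : ℝ) : ℂ)) else 1 / ((Real.sqrt 2 : ℝ) : ℂ),
    ?_, ?_⟩
  · simp only [nsq, Fintype.sum_bool, if_true, Bool.false_eq_true, if_false, norm_neg, norm_div,
      norm_one, Complex.norm_real, Real.norm_eq_abs, abs_of_pos hr0, div_pow, one_pow, hr]
    norm_num
  · ext x y
    have key : (1 / ((Real.sqrt 2 : ℝ) : ℂ)) * (1 / ((Real.sqrt 2 : ℝ) : ℂ)) = 1 / 2 := by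
      rw [div_mul_div_comm, hs]
      norm_num
    cases x <;> cases y <;>
      simp only [Emm, vecMulVec_apply, Pi.star_apply, if_true, Bool.false_eq_true, if_false,
        Bool.true_eq_false, star_neg, star_div₀, star_one, Complex.star_def, Complex.conj_ofReal,
        neg_mul, mul_neg, neg_neg, key, reduceCtorEq]

theorem isInp_Zm : IsInp ((1 / 2 : ℂ) • Zm) := by
  refine ⟨Zm, ?_, ?_, ?_, rfl⟩
  · ext x y
    cases x <;> cases y <;> simp [Zm, conjTranspose_apply]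
  · ext x y
    cases x <;> cases y <;> simp [Zm, Matrix.mul_apply, Matrix.one_apply]
  · simp [Zm, trace, Matrix.diag]

/-- a product of rank one projectors behaves as a rank one projector -/
theorem prodOp_rankOne {κ : Type} [Fintype κ] [DecidableEq κ] (p : κ → M2)
    (hp : ∀ i, IsRP (p i)) (X : Op κ) :
    prodOp p * X * prodOp p = trace (prodOp p * X) • prodOp p := by
  choose φ h1 h2 using hp
  have e : prodOp p = vecMulVec (fun z => ∏ i, φ i (z i)) (star (fun z => ∏ i, φ i (z i))) := by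
    have : p = fun i => vecMulVec (φ i) (star (φ i)) := funext h2
    rw [this, prodOp_vecMulVec]
    congr 1
    ext z
    simp [Pi.star_apply]
  rw [e]
  generalize (fun z : κ → Bool => ∏ i, φ i (z i)) = Φ
  rw [vecMulVec_mul, vecMulVec_mul_vecMulVec, trace_vecMulVec, vecMulVec_smul, dotProduct_comm]

end Vale.Agent.P368
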