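import Vale.Agent.P368.TightDefs

/-!
# P368: the example circuit is valid and computes `tightOut`
-/

namespace Vale.Agent.P368

open Matrix

theorem tight_valid (k : ℕ) (hk : 1 ≤ k) : ∀ L ∈ tightCircuit k, LayerValid L := by
  intro L hL
  simp only [tightCircuit, List.mem_cons, List.not_mem_nil, or_false] at hL
  rcases hL with rfl | rfl
  · constructor
    · intro g hg
      simp only [tightL1, List.mem_map] at hg
      obtain ⟨j, -, rfl⟩ := hg
      refine ⟨Finset.singleton_nonempty _, ?_⟩
      rw [Finset.mem_singleton]
      intro h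
      have h' := congrArg Fin.val (Sum.inl.inj h)
      simp only [Fin.val_natAdd, Fin.val_castAdd] at h'
      omega
    · unfold tightL1
      rw [List.pairwise_map]
      refine List.Pairwise.imp ?_ (List.nodup_finRange k)
      intro i j hij
      simp only [Gate.supp]
      rw [Finset.disjoint_left]
      intro c hc hc'
      simp only [Finset.mem_insert, Finset.mem_singleton] at hc hc'
      have hi := i.2
      have hj := j.2
      rcases hc with rfl | rfl <;> rcases hc' with h | h
      all_goals
        have h' := congrArg Fin.val (Sum.inl.inj h)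
        simp only [Fin.val_natAdd, Fin.val_castAdd] at h'
        omega
  · constructor
    · intro g hg
      simp only [tightL2, List.mem_cons, List.not_mem_nil, or_false] at hg
      subst hg
      refine ⟨⟨Sum.inl (Fin.natAdd k ⟨0, by omega⟩), ?_⟩, ?_⟩
      · exact Finset.mem_image_of_mem _ (Finset.mem_univ _)
      · simp
    · simp [tightL2]

theorem tight_depth (k : ℕ) : entDepth (tightCircuit k) ≤ 2 := by
  unfold entDepth tightCircuit
  exact le_trans (List.length_filter_le _ _) (by simp)

/-- the operator permuting (or mapping) basis states by `f` -/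
private def basisOp {ι : Type} [Fintype ι] [DecidableEq ι] (f : (ι → Bool) → (ι → Bool)) : Op ι :=
  fun z z' => if z = f z' then 1 else 0

private theorem basisOp_mul {ι : Type} [Fintype ι] [DecidableEq ι]
    (f g : (ι → Bool) → (ι → Bool)) : basisOp f * basisOp g = basisOp (f ∘ g) := by
  funext z z'
  rw [Matrix.mul_apply]
  simp only [basisOp, Function.comp]
  rw [Finset.sum_eq_single (g z')]
  · simp
  · intro w _ hw
    simp [hw]
  · intro h
    exact absurd (Finset.mem_univ _) h

private theorem basisOp_id {ι : Type} [Fintype ι] [DecidableEq ι] :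
    (1 : Op ι) = basisOp id := by
  funext z z'
  simp [basisOp, Matrix.one_apply]

/-- the action of a Toffoli gate on basis states -/
private def tofFun {ι : Type} [Fintype ι] [DecidableEq ι] (C : Finset ι) (b : ι) (z' : ι → Bool) : ι → Bool :=
  Function.update z' b (xor (z' b) (decide (∀ c ∈ C, z' c = true)))

private theorem toffoli_eq_basisOp {ι : Type} [Fintype ι] [DecidableEq ι] (C : Finset ι) (b : ι) :
    toffoli C b = basisOp (tofFun C b) := rfl

/-- the action of the first layer (restricted to a list of indices) on basis states -/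
private def F1 (k : ℕ) : List (Fin k) → (Fin (k + k) ⊕ Fin 1 → Bool) → (Fin (k + k) ⊕ Fin 1 → Bool)
  | [] => id
  | j :: l => tofFun {Sum.inl (Fin.castAdd k j)} (Sum.inl (Fin.natAdd k j)) ∘ F1 k l

private theorem layerOp_F1 (k : ℕ) (l : List (Fin k)) :
    layerOp (l.map (fun j => (Gate.tof {Sum.inl (Fin.castAdd k j)} (Sum.inl (Fin.natAdd k j)) :
      Gate (Fin (k + k) ⊕ Fin 1)))) = basisOp (F1 k l) := by
  induction l with
  | nil => simp [layerOp, F1, basisOp_id]
  | cons j l ih =>
    unfold layerOp at ih ⊢
    simp only [List.map_cons, List.prod_cons, F1]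
    rw [ih, ← basisOp_mul, ← toffoli_eq_basisOp]
    simp only [Gate.op]

private theorem F1_spec (k : ℕ) (l : List (Fin k)) (hl : l.Nodup) (z : Fin (k + k) ⊕ Fin 1 → Bool) :
    (∀ j : Fin k, F1 k l z (Sum.inl (Fin.castAdd k j)) = z (Sum.inl (Fin.castAdd k j))) ∧
    (F1 k l z (Sum.inr 0) = z (Sum.inr 0)) ∧
    (∀ j : Fin k, F1 k l z (Sum.inl (Fin.natAdd k j))
      = if j ∈ l then xor (z (Sum.inl (Fin.natAdd k j))) (z (Sum.inl (Fin.castAdd k j)))
        else z (Sum.inl (Fin.natAdd k j))) := by
  induction l with
  | nil => simp [F1]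
  | cons j0 l ih =>
    obtain ⟨hj0, hl'⟩ := List.nodup_cons.1 hl
    obtain ⟨ha, hb, hc⟩ := ih hl'
    refine ⟨fun j => ?_, ?_, fun j => ?_⟩
    · simp only [F1, Function.comp, tofFun]
      rw [Function.update_of_ne, ha]
      intro h
      have h' := congrArg Fin.val (Sum.inl.inj h)
      simp only [Fin.val_natAdd, Fin.val_castAdd] at h'
      have := j.2
      omega
    · simp only [F1, Function.comp, tofFun]
      rw [Function.update_of_ne, hb]
      simp
    · simp only [F1, Function.comp, tofFun]
      by_cases hj : j = j0
      · subst hj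
        rw [Function.update_self, hc, if_neg hj0]
        simp [ha]
      · rw [Function.update_of_ne, hc]
        · simp [hj]
        · intro h
          have h' := congrArg Fin.val (Sum.inl.inj h)
          simp only [Fin.val_natAdd] at h'
          exact hj (Fin.ext (by omega))

theorem tight_prob (k : ℕ) (x : Fin (k + k) → Bool) (β : Bool) :
    prob (tightCircuit k) x (Sum.inr 0) β = if tightOut k x = β then 1 else 0 := by
  have hop : circuitOp (tightCircuit k)
      = basisOp (tofFun (Finset.univ.image (fun j : Fin k => Sum.inl (Fin.natAdd k j))) (Sum.inr 0)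
          ∘ F1 k (List.finRange k)) := by
    simp only [tightCircuit, circuitOp, one_mul]
    rw [← basisOp_mul, ← layerOp_F1]
    rw [← toffoli_eq_basisOp]
    simp only [tightL2, tightL1, layerOp, List.map_cons, List.map_nil, List.prod_cons,
      List.prod_nil, mul_one, Gate.op]
  obtain ⟨ha, hb, hc⟩ := F1_spec k (List.finRange k) (List.nodup_finRange k)
    (initState x : Fin (k + k) ⊕ Fin 1 → Bool)
  unfold prob
  rw [hop]
  set w := (tofFun (Finset.univ.image (fun j : Fin k => Sum.inl (Fin.natAdd k j))) (Sum.inr 0)
          ∘ F1 k (List.finRange k)) (initState x) with hw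
  have hsum : ∀ z : Fin (k + k) ⊕ Fin 1 → Bool,
      (if z (Sum.inr 0) = β then ‖basisOp (tofFun (Finset.univ.image
        (fun j : Fin k => Sum.inl (Fin.natAdd k j))) (Sum.inr 0)
          ∘ F1 k (List.finRange k)) z (initState x)‖ ^ 2 else 0)
      = if z = w then (if w (Sum.inr 0) = β then (1 : ℝ) else 0) else 0 := by
    intro z
    simp only [basisOp]
    by_cases hz : z = w
    · subst hz
      simp [hw]
    · rw [if_neg hz, if_neg hz]
      simp
  rw [Finset.sum_congr rfl (fun z _ => hsum z)]
  rw [Finset.sum_ite_eq' Finset.univ w]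
  simp only [Finset.mem_univ, if_true]
  have hwq : w (Sum.inr 0) = tightOut k x := by
    rw [hw]
    have hinr : (initState x : Fin (k + k) ⊕ Fin 1 → Bool) (Sum.inr 0) = false := rfl
    have hinl : ∀ i, (initState x : Fin (k + k) ⊕ Fin 1 → Bool) (Sum.inl i) = x i := fun _ => rfl
    simp only [Function.comp, tofFun, Function.update_self, hb, hinr, Bool.false_xor, tightOut]
    apply decide_eq_decide.2
    constructor
    · intro h j
      have h1 := h (Sum.inl (Fin.natAdd k j)) (Finset.mem_image_of_mem _ (Finset.mem_univ j))
      rw [hc j, if_pos (List.mem_finRange j), hinl, hinl] at h1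
      intro h2
      rw [h2] at h1
      simp at h1
    · intro h c hcm
      obtain ⟨j, -, rfl⟩ := Finset.mem_image.1 hcm
      rw [hc j, if_pos (List.mem_finRange j), hinl, hinl]
      have h2 := h j
      revert h2
      cases x (Fin.natAdd k j) <;> cases x (Fin.castAdd k j) <;> simp
  rw [hwq]

end Vale.Agent.P368
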