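import Vale.Agent.P368.TightDefs

/-!
# P368: the correlation of `tightOut` with parity
-/

namespace Vale.Agent.P368

/-- the sign of a bit -/
private def sg (b : Bool) : ℝ := if b = true then -1 else 1

private theorem parity_sign {n : ℕ} (x : Fin n → Bool) :
    (if parity x = true then (-1 : ℝ) else 1) = ∏ i, sg (x i) := by
  unfold sg
  rw [Finset.prod_ite, Finset.prod_const, Finset.prod_const_one, mul_one]
  unfold parity
  by_cases h : Odd (Finset.univ.filter (fun i => x i = true)).card
  · simp [h, h.neg_one_pow]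
  · have h' := Nat.not_odd_iff_even.mp h
    simp [h, h'.neg_one_pow]

/-- pairs of bits versus inputs -/
private def pairEquiv (k : ℕ) : (Fin k → Bool × Bool) ≃ (Fin (k + k) → Bool) where
  toFun p := Fin.append (fun j => (p j).1) (fun j => (p j).2)
  invFun x := fun j => (x (Fin.castAdd k j), x (Fin.natAdd k j))
  left_inv p := by
    funext j
    simp only [Fin.append_left, Fin.append_right]
  right_inv x := by
    funext i
    refine Fin.addCases (fun j => ?_) (fun j => ?_) i
    · simp only [Fin.append_left]
    · simp only [Fin.append_right]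

private theorem pe_left (k : ℕ) (p : Fin k → Bool × Bool) (j : Fin k) :
    pairEquiv k p (Fin.castAdd k j) = (p j).1 := by
  show Fin.append (fun j => (p j).1) (fun j => (p j).2) (Fin.castAdd k j) = (p j).1
  rw [Fin.append_left]

private theorem pe_right (k : ℕ) (p : Fin k → Bool × Bool) (j : Fin k) :
    pairEquiv k p (Fin.natAdd k j) = (p j).2 := by
  show Fin.append (fun j => (p j).1) (fun j => (p j).2) (Fin.natAdd k j) = (p j).2
  rw [Fin.append_right]

private theorem summand_eq {n : ℕ} (o : Bool) (x : Fin n → Bool) :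
    ((if o = parity x then (1 : ℝ) else 0) - (if o = !(parity x) then (1 : ℝ) else 0))
      = (∏ i, sg (x i)) - 2 * ((∏ i, sg (x i)) * (if o = true then 1 else 0)) := by
  rw [← parity_sign]
  cases o <;> cases parity x <;> norm_num

private theorem sum_pairs (k : ℕ) (h : Bool × Bool → ℝ) :
    ∑ p : Fin k → Bool × Bool, ∏ j, h (p j) = (∑ w : Bool × Bool, h w) ^ k := by
  have := Finset.prod_univ_sum (fun _ : Fin k => (Finset.univ : Finset (Bool × Bool)))
    (fun _ w => h w)
  rw [Fintype.piFinset_univ] at this
  rw [← this]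
  simp

theorem tight_sum (k : ℕ) (hk : 1 ≤ k) :
    |∑ x : Fin (k + k) → Bool,
      ((if tightOut k x = parity x then (1 : ℝ) else 0) -
        (if tightOut k x = !(parity x) then (1 : ℝ) else 0))| = 2 * 2 ^ k := by
  rw [← (pairEquiv k).sum_comp]
  have e : ∀ p : Fin k → Bool × Bool,
      ((if tightOut k (pairEquiv k p) = parity (pairEquiv k p) then (1 : ℝ) else 0) -
        (if tightOut k (pairEquiv k p) = !(parity (pairEquiv k p)) then (1 : ℝ) else 0))
      = (∏ j, (sg (p j).1 * sg (p j).2))
        - 2 * ∏ j, (sg (p j).1 * sg (p j).2 * (if (p j).2 ≠ (p j).1 then 1 else 0)) := by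
    intro p
    rw [summand_eq]
    have e1 : ∏ i, sg (pairEquiv k p i) = ∏ j, (sg (p j).1 * sg (p j).2) := by
      rw [Fin.prod_univ_add, Finset.prod_mul_distrib]
      simp only [pe_left, pe_right]
    have e2 : (if tightOut k (pairEquiv k p) = true then (1 : ℝ) else 0)
        = ∏ j, (if (p j).2 ≠ (p j).1 then (1 : ℝ) else 0) := by
      rw [Fintype.prod_boole]
      simp only [tightOut, pe_left, pe_right, decide_eq_true_eq]
      by_cases hh : ∀ j : Fin k, (p j).2 ≠ (p j).1
      · rw [if_pos hh, if_pos hh]
      · rw [if_neg hh, if_neg hh]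
    rw [e1, e2, ← Finset.prod_mul_distrib]
  simp only [e]
  rw [Finset.sum_sub_distrib, ← Finset.mul_sum,
    sum_pairs k (fun w => sg w.1 * sg w.2),
    sum_pairs k (fun w => sg w.1 * sg w.2 * (if w.2 ≠ w.1 then 1 else 0))]
  have a1 : ∑ w : Bool × Bool, sg w.1 * sg w.2 = 0 := by
    simp [Fintype.sum_prod_type, sg]
  have a2 : ∑ w : Bool × Bool, sg w.1 * sg w.2 * (if w.2 ≠ w.1 then 1 else 0) = -2 := by
    simp [Fintype.sum_prod_type, sg]
    norm_num
  rw [a1, a2, zero_pow (by omega), zero_sub, abs_neg, abs_mul, abs_pow]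
  norm_num

end Vale.Agent.P368
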