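import Vale.Agent.P368.Tight1
import Vale.Agent.P368.Tight2

/-!
# P368: the example circuit has parity correlation `2 * 2 ^ (-n/2)` in absolute value
-/

namespace Vale.Agent.P368

theorem tight_correlation (k : ℕ) (hk : 1 ≤ k) :
    |correlation (tightCircuit k) (Sum.inr 0)| = 2 * (2 : ℝ) ^ (-((k + k : ℕ) : ℝ) / 2) := by
  unfold correlation
  simp only [tight_prob]
  rw [abs_mul, tight_sum k hk, abs_of_pos (by positivity)]
  have h1 : (2 : ℝ) ^ (-((k + k : ℕ) : ℝ) / 2) = ((2 : ℝ) ^ k)⁻¹ := by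
    rw [← Real.rpow_natCast, ← Real.rpow_neg (by norm_num)]
    congr 1
    push_cast
    ring
  rw [h1, pow_add]
  have : (2 : ℝ) ^ k ≠ 0 := by positivity
  field_simp

end Vale.Agent.P368
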