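import Vale.Agent.P368.Defs

/-!
# P368: the example showing that the depth two bound is tight up to the constant (definitions)
-/

namespace Vale.Agent.P368

/-- first layer: `k` CNOT gates, input `j` controls input `k + j` -/
def tightL1 (k : ℕ) : List (Gate (Fin (k + k) ⊕ Fin 1)) :=
  (List.finRange k).map
    (fun j => Gate.tof {Sum.inl (Fin.castAdd k j)} (Sum.inl (Fin.natAdd k j)))

/-- second layer: one generalized Toffoli gate controlled by the inputs `k + j`, whose target is the
ancilla -/
def tightL2 (k : ℕ) : List (Gate (Fin (k + k) ⊕ Fin 1)) :=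
  [Gate.tof (Finset.univ.image (fun j : Fin k => Sum.inl (Fin.natAdd k j))) (Sum.inr 0)]

/-- the example circuit on `k + k` inputs and one ancilla -/
def tightCircuit (k : ℕ) : List (List (Gate (Fin (k + k) ⊕ Fin 1))) := [tightL1 k, tightL2 k]

/-- the bit computed by the example circuit -/
def tightOut (k : ℕ) (x : Fin (k + k) → Bool) : Bool :=
  decide (∀ j : Fin k, x (Fin.natAdd k j) ≠ x (Fin.castAdd k j))

end Vale.Agent.P368
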