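import Vale.Agent.P368.Site

/-!
# P368: layers of reflections about product projectors, and the trace formula
-/

namespace Vale.Agent.P368

open Matrix

variable {ι : Type} [Fintype ι] [DecidableEq ι]

/-- the reflection about the product operator with site matrices `p` -/
noncomputable def refl (p : ι → M2) : Op ι := 1 - (2 : ℂ) • prodOp p

/-- a reflection gate: its support and its site matrices -/
abbrev RG (ι : Type) : Type := Finset ι × (ι → M2)

/-- rank one projectors on the support, identity elsewhere -/
def RG.Ok (g : RG ι) : Prop := (∀ i ∈ g.1, IsRP (g.2 i)) ∧ ∀ i, i ∉ g.1 → g.2 i = 1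

/-- a layer of reflection gates with pairwise disjoint supports -/
def GoodList (l : List (RG ι)) : Prop :=
  (∀ g ∈ l, RG.Ok g) ∧ l.Pairwise (fun g h => Disjoint g.1 h.1)

/-- the operator of a layer of reflection gates -/
noncomputable def reflProd (l : List (RG ι)) : Op ι := (l.map (fun g => refl g.2)).prod

/-- the union of the supports -/
def suppU : List (RG ι) → Finset ι
  | [] => ∅
  | g :: l => g.1 ∪ suppU l

/-- the value of a block: `Tr (ρ_S G A_S G)` expanded into four products of site traces -/
noncomputable def bval {κ : Type} (S : Finset κ) (p ρ A : κ → M2) : ℂ :=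
  ∏ i ∈ S, trace (ρ i * A i) - 2 * ∏ i ∈ S, trace (ρ i * (p i * A i))
    - 2 * ∏ i ∈ S, trace (ρ i * (A i * p i)) + 4 * ∏ i ∈ S, trace (ρ i * (p i * A i * p i))

theorem refl_mul_prodOp_mul_refl (p A : ι → M2) :
    refl p * prodOp A * refl p = prodOp A - (2 : ℂ) • prodOp (fun i => p i * A i)
      - (2 : ℂ) • prodOp (fun i => A i * p i) + (4 : ℂ) • prodOp (fun i => p i * A i * p i) := by
  have h1 : prodOp p * prodOp A = prodOp (fun i => p i * A i) := prodOp_mul p A
  have h2 : prodOp A * prodOp p = prodOp (fun i => A i * p i) := prodOp_mul A p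
  have h3 : prodOp p * prodOp A * prodOp p = prodOp (fun i => p i * A i * p i) := by
    rw [h1, prodOp_mul]
  rw [← h1, ← h2, ← h3]
  unfold refl
  simp only [sub_mul, mul_sub, one_mul, mul_one, smul_mul_assoc, mul_smul_comm, smul_sub,
    smul_smul]
  norm_num
  abel

theorem refl_isHermitian (g : RG ι) (hg : RG.Ok g) : (refl g.2)ᴴ = refl g.2 := by
  have hp : (fun i => (g.2 i)ᴴ) = g.2 := by
    funext i
    by_cases hi : i ∈ g.1
    · exact (hg.1 i hi).isHermitian
    · rw [hg.2 i hi, conjTranspose_one]
  unfold refl
  rw [conjTranspose_sub, conjTranspose_one, conjTranspose_smul, prodOp_conjTranspose, hp]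
  simp

theorem refl_mul_self (g : RG ι) (hg : RG.Ok g) : refl g.2 * refl g.2 = 1 := by
  have hp : (fun i => g.2 i * g.2 i) = g.2 := by
    funext i
    by_cases hi : i ∈ g.1
    · exact (hg.1 i hi).mul_self
    · rw [hg.2 i hi, one_mul]
  have h1 : prodOp g.2 * prodOp g.2 = prodOp g.2 := by rw [prodOp_mul, hp]
  unfold refl
  simp only [sub_mul, mul_sub, one_mul, mul_one, smul_mul_assoc, mul_smul_comm, smul_sub,
    smul_smul, h1]
  norm_num
  module

/-- product operators with complementary supports commute -/
theorem prodOp_commute (a b : ι → M2) (h : ∀ i, a i = 1 ∨ b i = 1) :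
    prodOp a * prodOp b = prodOp b * prodOp a := by
  rw [prodOp_mul, prodOp_mul]
  congr 1
  funext i
  rcases h i with h1 | h1 <;> rw [h1, one_mul, mul_one]

theorem refl_commute_prodOp (a b : ι → M2) (h : ∀ i, a i = 1 ∨ b i = 1) :
    refl a * prodOp b = prodOp b * refl a := by
  unfold refl
  rw [sub_mul, mul_sub, one_mul, mul_one, smul_mul_assoc, mul_smul_comm, prodOp_commute a b h]

theorem refl_commute_refl (a b : ι → M2) (h : ∀ i, a i = 1 ∨ b i = 1) :
    refl a * refl b = refl b * refl a := by
  have h1 := refl_commute_prodOp a b h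
  have e : refl b = 1 - (2 : ℂ) • prodOp b := rfl
  rw [e, mul_sub, sub_mul, mul_one, one_mul, mul_smul_comm, smul_mul_assoc, h1]

theorem reflProd_conjTranspose_mul_self (l : List (RG ι)) (hl : GoodList l) :
    (reflProd l)ᴴ * reflProd l = 1 := by
  induction l with
  | nil => simp [reflProd]
  | cons g l ih =>
    have hg : RG.Ok g := hl.1 g (List.mem_cons_self)
    have hl' : GoodList l :=
      ⟨fun h hh => hl.1 h (List.mem_cons_of_mem _ hh), (List.pairwise_cons.1 hl.2).2⟩
    have e : reflProd (g :: l) = refl g.2 * reflProd l := by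
      simp [reflProd]
    rw [e, conjTranspose_mul, refl_isHermitian g hg, Matrix.mul_assoc,
      ← Matrix.mul_assoc (refl g.2), refl_mul_self g hg, Matrix.one_mul, ih hl']

end Vale.Agent.P368
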