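import Vale.Agent.P368.Trace

/-!
# P368: the trace formula
-/

namespace Vale.Agent.P368

open Matrix

variable {ι : Type} [Fintype ι] [DecidableEq ι]

private theorem disjoint_suppU (S : Finset ι) (l : List (RG ι))
    (h : ∀ g ∈ l, Disjoint S g.1) : Disjoint S (suppU l) := by
  induction l with
  | nil => simp [suppU]
  | cons g l ih =>
    simp only [suppU, Finset.disjoint_union_right]
    exact ⟨h g (by simp), ih (fun g' hg' => h g' (by simp [hg']))⟩

private theorem bval_congr' {κ : Type} (S : Finset κ) (p ρ A B : κ → M2)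
    (h : ∀ i ∈ S, B i = A i) : bval S p ρ B = bval S p ρ A := by
  unfold bval
  rw [Finset.prod_congr rfl (fun i hi => by rw [h i hi] :
        ∀ i ∈ S, trace (ρ i * B i) = trace (ρ i * A i)),
    Finset.prod_congr rfl (fun i hi => by rw [h i hi] :
        ∀ i ∈ S, trace (ρ i * (p i * B i)) = trace (ρ i * (p i * A i))),
    Finset.prod_congr rfl (fun i hi => by rw [h i hi] :
        ∀ i ∈ S, trace (ρ i * (B i * p i)) = trace (ρ i * (A i * p i))),
    Finset.prod_congr rfl (fun i hi => by rw [h i hi] :
        ∀ i ∈ S, trace (ρ i * (p i * B i * p i)) = trace (ρ i * (p i * A i * p i)))]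

private theorem map_bval_congr (S : Finset ι) (l : List (RG ι))
    (hd : ∀ g ∈ l, Disjoint S g.1) (ρ A B : ι → M2) (h : ∀ i, i ∉ S → B i = A i) :
    l.map (fun g => bval g.1 g.2 ρ B) = l.map (fun g => bval g.1 g.2 ρ A) := by
  apply List.map_congr_left
  intro g hg
  apply bval_congr'
  intro i hi
  exact h i (fun hiS => (Finset.disjoint_left.mp (hd g hg)) hiS hi)

private theorem prod_compl_split (S T : Finset ι) (hd : Disjoint S T) (f : ι → ℂ) :
    ∏ i ∈ Tᶜ, f i = (∏ i ∈ S, f i) * ∏ i ∈ (S ∪ T)ᶜ, f i := by
  have e : Tᶜ = S ∪ (S ∪ T)ᶜ := by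
    ext i
    simp only [Finset.mem_compl, Finset.mem_union]
    constructor
    · intro hi
      by_cases hS : i ∈ S
      · exact Or.inl hS
      · exact Or.inr (fun h => h.elim hS hi)
    · rintro (hS | h)
      · exact fun hT => (Finset.disjoint_left.mp hd) hS hT
      · exact fun hT => h (Or.inr hT)
  have hdis : Disjoint S (S ∪ T)ᶜ := by
    rw [Finset.disjoint_left]
    intro i hS h
    exact (Finset.mem_compl.mp h) (Finset.mem_union_left _ hS)
  rw [e, Finset.prod_union hdis]

/-- The trace formula: the trace of a product operator against a product operator conjugated by a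
layer of disjoint reflections factors over the free sites and the gates. -/
theorem trace_formula (l : List (RG ι)) (hl : GoodList l) (ρ A : ι → M2) :
    trace (prodOp ρ * ((reflProd l)ᴴ * prodOp A * reflProd l)) =
      (∏ i ∈ (suppU l)ᶜ, trace (ρ i * A i)) * (l.map (fun g => bval g.1 g.2 ρ A)).prod := by
  induction l generalizing A with
  | nil =>
    simp only [reflProd, List.map_nil, List.prod_nil, conjTranspose_one, one_mul, mul_one, suppU,
      Finset.compl_empty]
    rw [prodOp_mul, trace_prodOp]
  | cons g l ih =>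
    obtain ⟨hok, hpw⟩ := hl
    rw [List.pairwise_cons] at hpw
    have hg : RG.Ok g := hok g (by simp)
    have hl' : GoodList l := ⟨fun h hh => hok h (by simp [hh]), hpw.2⟩
    have hd : ∀ h ∈ l, Disjoint g.1 h.1 := hpw.1
    have hdU : Disjoint g.1 (suppU l) := disjoint_suppU g.1 l hd
    -- the value of the inner trace for site matrices agreeing with `A` off the support of `g`
    have key : ∀ B : ι → M2, (∀ i, i ∉ g.1 → B i = A i) →
        trace (prodOp ρ * ((reflProd l)ᴴ * prodOp B * reflProd l)) =
          (∏ i ∈ g.1, trace (ρ i * B i)) *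
            ((∏ i ∈ (suppU (g :: l))ᶜ, trace (ρ i * A i)) *
              (l.map (fun h => bval h.1 h.2 ρ A)).prod) := by
      intro B hB
      rw [ih hl' B, map_bval_congr g.1 l hd ρ A B hB,
        prod_compl_split g.1 (suppU l) hdU (fun i => trace (ρ i * B i))]
      have e : ∏ i ∈ (g.1 ∪ suppU l)ᶜ, trace (ρ i * B i)
          = ∏ i ∈ (g.1 ∪ suppU l)ᶜ, trace (ρ i * A i) := by
        apply Finset.prod_congr rfl
        intro i hi
        rw [hB i (fun h => (Finset.mem_compl.mp hi) (Finset.mem_union_left _ h))]
      rw [e]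
      simp only [suppU]
      ring
    have hexp : (reflProd (g :: l))ᴴ * prodOp A * reflProd (g :: l) =
        (reflProd l)ᴴ * prodOp A * reflProd l
        - (2 : ℂ) • ((reflProd l)ᴴ * prodOp (fun i => g.2 i * A i) * reflProd l)
        - (2 : ℂ) • ((reflProd l)ᴴ * prodOp (fun i => A i * g.2 i) * reflProd l)
        + (4 : ℂ) • ((reflProd l)ᴴ * prodOp (fun i => g.2 i * A i * g.2 i) * reflProd l) := by
      have e1 : reflProd (g :: l) = refl g.2 * reflProd l := by
        simp [reflProd]
      rw [e1, conjTranspose_mul, refl_isHermitian g hg]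
      have e2 : (reflProd l)ᴴ * refl g.2 * prodOp A * (refl g.2 * reflProd l)
          = (reflProd l)ᴴ * (refl g.2 * prodOp A * refl g.2) * reflProd l := by
        simp only [Matrix.mul_assoc]
      rw [e2, refl_mul_prodOp_mul_refl]
      simp only [Matrix.mul_add, Matrix.mul_sub, Matrix.add_mul, Matrix.sub_mul,
        Matrix.mul_smul, Matrix.smul_mul]
    rw [hexp]
    simp only [Matrix.mul_add, Matrix.mul_sub, Matrix.mul_smul, trace_add, trace_sub, trace_smul]
    rw [key A (fun _ _ => rfl),
      key (fun i => g.2 i * A i) (fun i hi => by simp [hg.2 i hi]),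
      key (fun i => A i * g.2 i) (fun i hi => by simp [hg.2 i hi]),
      key (fun i => g.2 i * A i * g.2 i) (fun i hi => by simp [hg.2 i hi])]
    simp only [List.map_cons, List.prod_cons, bval, smul_eq_mul]
    ring

end Vale.Agent.P368
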